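import Vale.Agent.Lib.PTime.Machine

/-! The predicate `PTime` and its basic closure properties. -/

namespace Vale.Agent.PT

open Function TEnc Polynomial

/-! ### stack primitives -/

def pushs : List R → Bool → Cmd
  | [], _ => .skip
  | k :: ks, x => .seq (.push k x) (pushs ks x)

/-- move the top tree of stack `a`, reversed, to the stacks `b` and/or `c` -/
def mvLoop (ks : List R) : Cmd :=
  .loop .d .skip (.cases .a .skip (pushs ks false)
    (.seq (pushs ks true) (.seq (.push .d true) (.push .d true))))

def mv (ks : List R) : Cmd := .seq (.push .d true) (mvLoop ks)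

def back (k : R) : Cmd := .loop k (.push .a false) (.push .a true)

def ifb (u : Bool) (x y : List Bool) : List Bool := if u then x ++ y else y

lemma ifb_nil (u y) : ifb u [] y = y := by cases u <;> simp [ifb]
lemma ifb_ifb (u x x' y) : ifb u x (ifb u x' y) = ifb u (x ++ x') y := by cases u <;> simp [ifb]

def tg (u v : Bool) : List R := (if u then [.b] else []) ++ (if v then [.c] else [])

lemma run_pushs (u v x : Bool) (a b c d) :
    Run (pushs (tg u v) x) (mk a b c d) (mk a (ifb u [x] b) (ifb v [x] c) d) 3 := by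
  cases u <;> cases v
  · exact (Run.skip _).mono (by omega)
  · simpa [tg, pushs, ifb] using! ((Run.push .c x (mk a b c d)).seq (Run.skip _)).mono
      (t' := 3) (by omega)
  · simpa [tg, pushs, ifb] using! ((Run.push .b x (mk a b c d)).seq (Run.skip _)).mono
      (t' := 3) (by omega)
  · simpa [tg, pushs, ifb] using! ((Run.push .b x (mk a b c d)).seq
      ((Run.push .c x _).seq (Run.skip _)))

lemma run_mvLoop (u v : Bool) (t : BT) : ∀ (a b c d : List Bool) (S : St) (m : ℕ),
    Run (mvLoop (tg u v)) (mk a (ifb u t.ser.reverse b) (ifb v t.ser.reverse c) d) S m →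
    Run (mvLoop (tg u v)) (mk (t.ser ++ a) b c (true :: d)) S (7 * t.ser.length + m) := by
  induction t with
  | nil =>
    intro a b c d S m h
    refine (Run.loopT (l := d) rfl (Run.casesF (l := a) (by simp [BT.ser])
      (by simpa using! run_pushs u v false a b c d)) h).mono ?_
    simp [BT.ser]
  | cons l r ihl ihr =>
    intro a b c d S m h
    have h1 := ihr a (ifb u l.ser.reverse (ifb u [true] b)) (ifb v l.ser.reverse (ifb v [true] c))
      d S m (by simpa [ifb_ifb, BT.ser] using! h)
    have h2 := ihl (r.ser ++ a) (ifb u [true] b) (ifb v [true] c) (true :: d) S _ h1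
    have h3 : Run (.seq (pushs (tg u v) true) (.seq (.push .d true) (.push .d true)))
        (mk (l.ser ++ (r.ser ++ a)) b c d)
        (mk (l.ser ++ (r.ser ++ a)) (ifb u [true] b) (ifb v [true] c) (true :: true :: d)) 5 := by
      simpa using! (run_pushs u v true (l.ser ++ (r.ser ++ a)) b c d).seq
        ((Run.push .d true _).seq (Run.push .d true _))
    refine (Run.loopT (l := d) rfl (Run.casesT (l := l.ser ++ (r.ser ++ a)) (by simp [BT.ser])
      (by simpa using! h3)) h2).mono ?_
    simp [BT.ser]; omega

lemma run_mv (u v : Bool) (t : BT) (a b c : List Bool) :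
    Run (mv (tg u v)) (mk (t.ser ++ a) b c [])
      (mk a (ifb u t.ser.reverse b) (ifb v t.ser.reverse c) []) (7 * t.ser.length + 2) := by
  have h := run_mvLoop u v t a b c [] _ _ (Run.loopE rfl)
  exact ((Run.push .d true _).seq (by simpa using! h)).mono (by omega)

lemma run_back_b (x : List Bool) : ∀ (a c d : List Bool),
    Run (back .b) (mk a x c d) (mk (x.reverse ++ a) [] c d) (2 * x.length + 1) := by
  induction x with
  | nil => intro a c d; exact Run.loopE rfl
  | cons y x ih =>
    intro a c d
    cases y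
    · exact (Run.loopF (l := x) rfl (Run.push _ _ _) (by simpa using! ih (false :: a) c d)).mono
        (by simp; omega)
    · exact (Run.loopT (l := x) rfl (Run.push _ _ _) (by simpa using! ih (true :: a) c d)).mono
        (by simp; omega)

lemma run_back_c (x : List Bool) : ∀ (a b d : List Bool),
    Run (back .c) (mk a b x d) (mk (x.reverse ++ a) b [] d) (2 * x.length + 1) := by
  induction x with
  | nil => intro a c d; exact Run.loopE rfl
  | cons y x ih =>
    intro a c d
    cases y
    · exact (Run.loopF (l := x) rfl (Run.push _ _ _) (by simpa using! ih (false :: a) c d)).mono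
        (by simp; omega)
    · exact (Run.loopT (l := x) rfl (Run.push _ _ _) (by simpa using! ih (true :: a) c d)).mono
        (by simp; omega)

/-- only the value stack is non-empty -/
abbrev st (a : List Bool) : St := mk a [] [] []

def drop : Cmd := mv (tg false false)
def dup : Cmd := .seq (mv (tg true true)) (.seq (back .b) (back .c))
def swap : Cmd := .seq (mv (tg true false)) (.seq (mv (tg false true)) (.seq (back .b) (back .c)))

lemma run_drop (t : BT) (a) : Run drop (st (t.ser ++ a)) (st a) (7 * t.ser.length + 2) := by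
  simpa [ifb] using! run_mv false false t a [] []

lemma run_dup (t : BT) (a) :
    Run dup (st (t.ser ++ a)) (st (t.ser ++ (t.ser ++ a))) (11 * t.ser.length + 4) := by
  have h1 := run_mv true true t a [] []
  simp only [ifb, if_true, List.append_nil] at h1
  have h2 := run_back_b t.ser.reverse a t.ser.reverse []
  have h3 := run_back_c t.ser.reverse (t.ser ++ a) [] []
  simp only [List.reverse_reverse, List.length_reverse] at h2 h3
  exact (h1.seq (h2.seq h3)).mono (by omega)

lemma run_swap (t s : BT) (a) : Run swap (st (t.ser ++ (s.ser ++ a))) (st (s.ser ++ (t.ser ++ a)))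
    (9 * (t.ser.length + s.ser.length) + 6) := by
  have h1 := run_mv true false t (s.ser ++ a) [] []
  have h1' := run_mv false true s a t.ser.reverse []
  simp only [ifb, if_true, List.append_nil, Bool.false_eq_true, if_false] at h1 h1'
  have h2 := run_back_b t.ser.reverse a s.ser.reverse []
  have h3 := run_back_c s.ser.reverse (t.ser ++ a) [] []
  simp only [List.reverse_reverse, List.length_reverse] at h2 h3
  exact (h1.seq (h1'.seq (h2.seq h3))).mono (by omega)

def pushList : List Bool → Cmd
  | [] => .skip
  | x :: l => .seq (pushList l) (.push .a x)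

lemma run_pushList (l a) : Run (pushList l) (st a) (st (l ++ a)) (l.length + 1) := by
  induction l with
  | nil => exact Run.skip _
  | cons x l ih => simpa using! ih.seq (Run.push .a x _)

/-! ### sizes and polynomial bounds -/

variable {α β γ δ : Type} [TEnc α] [TEnc β] [TEnc γ] [TEnc δ]

/-- the length of the encoding -/
def sz (a : α) : ℕ := (encode a).length

/-- `g` is bounded by a polynomial in the length of the input -/
@[fun_prop]
def PB (g : α → ℕ) : Prop := ∃ p : Polynomial ℕ, ∀ a, g a ≤ p.eval (sz a)

/-- `f` is computable in polynomial time -/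
@[fun_prop]
def PTime (f : α → β) : Prop := ∃ (c : Cmd) (t : α → ℕ), PB t ∧
  ∀ a r, Run c (st (encode a ++ r)) (st (encode (f a) ++ r)) (t a)

lemma eval_mono (p : Polynomial ℕ) {m n : ℕ} (h : m ≤ n) : p.eval m ≤ p.eval n := by
  induction p using Polynomial.induction_on' with
  | add p q hp hq => simp only [eval_add]; omega
  | monomial k a => simp only [eval_monomial]; gcongr

lemma PB.of_le {f g : α → ℕ} (hg : PB g) (h : ∀ a, f a ≤ g a) : PB f :=
  let ⟨p, hp⟩ := hg; ⟨p, fun a => (h a).trans (hp a)⟩

@[fun_prop] lemma PB.const (n : ℕ) : PB fun _ : α => n := ⟨C n, fun _ => by simp⟩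

lemma PB.sz_id : PB fun a : α => sz a := ⟨X, fun _ => by simp⟩

@[fun_prop] lemma PB.add {f g : α → ℕ} (hf : PB f) (hg : PB g) : PB fun a => f a + g a :=
  let ⟨p, hp⟩ := hf; let ⟨q, hq⟩ := hg
  ⟨p + q, fun a => by rw [eval_add]; exact add_le_add (hp a) (hq a)⟩

@[fun_prop] lemma PB.mul {f g : α → ℕ} (hf : PB f) (hg : PB g) : PB fun a => f a * g a :=
  let ⟨p, hp⟩ := hf; let ⟨q, hq⟩ := hg
  ⟨p * q, fun a => by rw [eval_mul]; exact Nat.mul_le_mul (hp a) (hq a)⟩

@[fun_prop] lemma PB.pow {f : α → ℕ} (hf : PB f) (k : ℕ) : PB fun a => f a ^ k :=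
  let ⟨p, hp⟩ := hf
  ⟨p ^ k, fun a => by rw [eval_pow]; exact Nat.pow_le_pow_left (hp a) k⟩

@[fun_prop] lemma PB.sub {f : α → ℕ} (hf : PB f) (g : α → ℕ) : PB fun a => f a - g a :=
  hf.of_le fun _ => Nat.sub_le _ _

@[fun_prop] lemma PB.div {f : α → ℕ} (hf : PB f) (g : α → ℕ) : PB fun a => f a / g a :=
  hf.of_le fun _ => Nat.div_le_self _ _

@[fun_prop] lemma PB.max {f g : α → ℕ} (hf : PB f) (hg : PB g) : PB fun a => max (f a) (g a) :=
  (hf.add hg).of_le fun _ => by omega

@[fun_prop] lemma PB.eval {f : α → ℕ} (hf : PB f) (q : Polynomial ℕ) : PB fun a => q.eval (f a) :=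
  let ⟨p, hp⟩ := hf
  ⟨q.comp p, fun a => by rw [eval_comp]; exact eval_mono q (hp a)⟩

/-- a polynomial bound composed with a map that does not blow up sizes -/
lemma PB.comp_sz {g : β → ℕ} (hg : PB g) {f : α → β} (hf : PB fun a => sz (f a)) :
    PB fun a => g (f a) :=
  let ⟨q, hq⟩ := hg; (hf.eval q).of_le fun _ => hq _

/-- outputs of polynomial-time functions have polynomial length -/
@[fun_prop] lemma PTime.sz_PB {f : α → β} (hf : PTime f) : PB fun a => sz (f a) := by
  obtain ⟨c, t, ht, h⟩ := hf
  refine (PB.sz_id.add ht).of_le fun a => ?_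
  obtain ⟨n, hn, he⟩ := h a []
  have := he.tot_le
  simp only [tot, mk_a, mk_b, mk_c, mk_d, List.append_nil, List.length_nil] at this
  unfold sz; omega

lemma PB.comp {g : β → ℕ} (hg : PB g) {f : α → β} (hf : PTime f) : PB fun a => g (f a) :=
  hg.comp_sz hf.sz_PB

/-- The bridge to Mathlib's Turing machines. -/
theorem PTime.toTM {f : α → β} (hf : PTime f) : PolyTimeTM f := by
  obtain ⟨c, t, ⟨p, hp⟩, h⟩ := hf
  refine ⟨⟨⟨machine c, Equiv.refl _, Equiv.refl _⟩, p, fun a => ?_⟩⟩
  have h1 : Nonempty (Turing.TM2OutputsInTime (machine c) (encode a) (some (encode (f a)))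
      (p.eval (encode a).length)) := by
    obtain ⟨n, hn, he⟩ := h a []
    simp only [List.append_nil] at he
    exact machine_outputs he (hn.trans (hp a))
  have e : ∀ l : List Bool, List.map (Equiv.refl Bool).invFun l = l := fun l => List.map_id l
  exact cast (by congr 1 <;> [exact (e _).symm; exact congrArg some (e _).symm]) h1.some

/-! ### basic combinators -/

lemma PTime.of_eq {f g : α → β} (hf : PTime f) (h : ∀ a, f a = g a) : PTime g :=
  funext h ▸ hf

/-- change of representation: only the encodings matter -/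
lemma PTime.of_enc {f : α → β} {g : α → γ} (hf : PTime f) (h : ∀ a, enc (g a) = enc (f a)) :
    PTime g := by
  obtain ⟨c, t, ht, hc⟩ := hf
  exact ⟨c, t, ht, fun a r => by simpa only [encode, h] using! hc a r⟩

@[fun_prop] lemma PTime.id : PTime fun a : α => a :=
  ⟨.skip, fun _ => 1, PB.const _, fun _ _ => Run.skip _⟩

/-- a map that does not change the encoding -/
lemma PTime.of_enc_eq {g : α → β} (h : ∀ a, enc (g a) = enc a) : PTime g := PTime.id.of_enc h

@[fun_prop] lemma PTime.const (b : β) : PTime fun _ : α => b :=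
  ⟨.seq drop (pushList (encode b)), fun a => 7 * sz a + 2 + (sz b + 1),
    ((PB.const _).mul PB.sz_id |>.add (PB.const _)).add (PB.const _),
    fun _ _ => (run_drop _ _).seq (run_pushList _ _)⟩

@[fun_prop] lemma PTime.comp {g : β → γ} {f : α → β} (hg : PTime g) (hf : PTime f) :
    PTime fun a => g (f a) := by
  obtain ⟨c, t, ht, hc⟩ := _root_.id hf
  obtain ⟨c', t', ht', hc'⟩ := hg
  exact ⟨.seq c c', fun a => t a + t' (f a), ht.add (ht'.comp hf),
    fun a r => (hc a r).seq (hc' _ r)⟩

lemma encode_prod (a : α) (b : β) : encode (a, b) = true :: (encode a ++ encode b) := rfl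

@[simp] lemma sz_prod (a : α) (b : β) : sz (a, b) = sz a + sz b + 1 := by
  simp [sz, encode_prod]

lemma sz_pos (a : α) : 0 < sz a := by
  unfold sz encode; cases enc a <;> simp [BT.ser]

@[fun_prop] lemma PTime.prodMk {f : α → β} {g : α → γ} (hf : PTime f) (hg : PTime g) :
    PTime fun a => (f a, g a) := by
  obtain ⟨c, t, ht, hc⟩ := hf
  obtain ⟨c', t', ht', hc'⟩ := _root_.id hg
  refine ⟨.seq dup (.seq c' (.seq swap (.seq c (.push .a true)))),
    fun a => 11 * sz a + 4 + (t' a + (9 * (sz (g a) + sz a) + 6 + (t a + 1))), ?_, fun a r => ?_⟩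
  · have := hg.sz_PB
    have := PB.sz_id (α := α)
    fun_prop
  · refine (run_dup _ _).seq ((hc' _ _).seq ((run_swap _ _ _).seq ((hc _ _).seq ?_)))
    simpa [encode_prod] using! Run.push .a true (st (encode (f a) ++ (encode (g a) ++ r)))

lemma PTime.fst_id : PTime fun p : α × β => p.1 := by
  refine ⟨.cases .a .skip .skip (.seq swap drop), fun p => 16 * sz p + 9, ?_, fun p r => ?_⟩
  · have := PB.sz_id (α := α × β); fun_prop
  · obtain ⟨a, b⟩ := p
    refine (Run.casesT (l := encode a ++ (encode b ++ r)) (by simp [encode_prod]) ?_).mono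
      (t := 9 * (sz a + sz b) + 6 + (7 * sz b + 2) + 1) (by simp; omega)
    simpa using! (run_swap (enc a) (enc b) r).seq (run_drop _ _)

lemma PTime.snd_id : PTime fun p : α × β => p.2 := by
  refine ⟨.cases .a .skip .skip drop, fun p => 16 * sz p + 9, ?_, fun p r => ?_⟩
  · have := PB.sz_id (α := α × β); fun_prop
  · obtain ⟨a, b⟩ := p
    refine (Run.casesT (l := encode a ++ (encode b ++ r)) (by simp [encode_prod]) ?_).mono
      (t := 7 * sz a + 2 + 1) (by simp; omega)
    simpa using! run_drop (enc a) (encode b ++ r)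

@[fun_prop] lemma PTime.fst {f : α → β × γ} (hf : PTime f) : PTime fun a => (f a).1 :=
  PTime.fst_id.comp hf

@[fun_prop] lemma PTime.snd {f : α → β × γ} (hf : PTime f) : PTime fun a => (f a).2 :=
  PTime.snd_id.comp hf

/-- case distinction on a tree -/
def BT.cas {β : Type} (t : BT) (x : β) (y : BT × BT → β) : β :=
  match t with
  | .nil => x
  | .cons l r => y (l, r)

lemma PTime.cas {f : α → BT} {g : α → β} {h : α → BT × BT → β} (hf : PTime f) (hg : PTime g)
    (hh : PTime fun p : α × (BT × BT) => h p.1 p.2) : PTime fun a => (f a).cas (g a) (h a) := by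
  obtain ⟨c, t, ht, hc⟩ := _root_.id hf
  obtain ⟨c', t', q', hc'⟩ := hg
  obtain ⟨c'', t'', ⟨q, hq⟩, hc''⟩ := hh
  refine ⟨.seq dup (.seq c (.cases .a .skip c'
    (.seq (.push .a true) (.seq swap (.seq (.push .a true) c''))))),
    fun a => 11 * sz a + 4 + (t a + (t' a + (1 + (9 * (sz (f a) + sz a) + 6 +
      (1 + q.eval (sz a + sz (f a) + 1)))) + 1)), ?_, fun a r => ?_⟩
  · have := hf.sz_PB
    have := PB.sz_id (α := α)
    fun_prop
  · refine (run_dup _ _).seq ((hc _ _).seq ?_)
    beta_reduce
    cases hfa : f a with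
    | nil =>
      exact (Run.casesF (l := encode a ++ r) rfl (by simpa using! hc' a r)).mono (by omega)
    | cons x y =>
      have h1 := hc'' (a, (x, y)) r
      have h2 := hq (a, (x, y))
      have h3 := run_swap (.cons x y) (enc a) r
      have h4 : Run (.seq (.push .a true) (.seq swap (.seq (.push .a true) c'')))
          (st (x.ser ++ y.ser ++ (encode a ++ r))) (st (encode (h a (x, y)) ++ r)) _ :=
        (Run.push .a true _).seq (Run.seq (by simpa [BT.ser] using! h3)
          ((Run.push .a true _).seq (by simpa [encode_prod] using! h1)))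
      refine (Run.casesT (l := x.ser ++ y.ser ++ (encode a ++ r)) rfl (by simpa using! h4)).mono ?_
      have e : sz (x, y) = sz (BT.cons x y) := rfl
      have e' : sz (BT.cons x y) = x.ser.length + y.ser.length + 1 := by
        simp [sz, encode, enc, BT.ser]
      rw [sz_prod, e] at h2
      have e'' : (enc a).ser.length = sz a := rfl
      omega

@[fun_prop] lemma PTime.enc {f : α → β} (hf : PTime f) : PTime fun a => (enc (f a) : BT) :=
  hf.of_enc fun _ => rfl

/-- The general loop: iterate `g` while the test `c` holds. -/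
theorem PTime.loop {g : β → β} {c : β → Bool} (hg : PTime g) (hc : PTime c) {i : α → β}
    (hi : PTime i) (N : α → ℕ) (hN : PB N) (B : α → ℕ) (hB : PB B)
    (h1 : ∀ a, ∀ k < N a, c (g^[k] (i a)) = true) (h2 : ∀ a, c (g^[N a] (i a)) = false)
    (h3 : ∀ a, ∀ k ≤ N a, sz (g^[k] (i a)) ≤ B a) : PTime fun a => g^[N a] (i a) := by
  obtain ⟨ci, ti, hti, hci⟩ := hi
  obtain ⟨cg, tg, ⟨qg, hqg⟩, hcg⟩ := hg
  obtain ⟨cc, tc, ⟨qc, hqc⟩, hcc⟩ := hc
  let test : Cmd := .seq dup (.seq cc (.cases .a .skip .skip (.seq drop (.seq drop (.push .d true)))))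
  have htest : ∀ (s : β) r, Run test (st (encode s ++ r))
      (mk (encode s ++ r) [] [] (if c s then [true] else [])) (11 * sz s + qc.eval (sz s) + 24) := by
    intro s r
    refine ((run_dup _ _).seq ((hcc _ _).seq (m := 20) ?_)).mono (by have := hqc s; unfold sz at *; unfold encode at *; omega)
    cases c s
    · exact (Run.casesF (l := encode s ++ r) rfl (by simpa using! Run.skip _)).mono (by omega)
    · refine Run.casesT (l := BT.nil.ser ++ (BT.nil.ser ++ (encode s ++ r))) rfl ?_
      simpa using! (run_drop .nil _).seq ((run_drop .nil (encode s ++ r)).seq (Run.push .d true _))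
  let T : ℕ → ℕ := fun b => qg.eval b + (11 * b + qc.eval b + 24) + 1
  have hloop : ∀ a r j, j ≤ N a → Run (.loop .d .skip (.seq cg test))
      (mk (encode (g^[N a - j] (i a)) ++ r) [] [] (if c (g^[N a - j] (i a)) then [true] else []))
      (st (encode (g^[N a] (i a)) ++ r)) (j * T (B a) + 1) := by
    intro a r j
    induction j with
    | zero => intro _; simpa [h2 a] using! Run.loopE (S := st (encode (g^[N a] (i a)) ++ r)) rfl
    | succ j ih =>
      intro hj
      have e : g^[N a - j] (i a) = g (g^[N a - (j + 1)] (i a)) := by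
        rw [← iterate_succ_apply' g]; congr 1; omega
      have ih' := ih (by omega)
      rw [h1 a _ (by omega)]
      have b1 := h3 a (N a - (j + 1)) (by omega)
      have b2 := h3 a (N a - j) (by omega)
      have r1 := (hcg (g^[N a - (j + 1)] (i a)) r).seq (htest _ r)
      rw [← e] at r1
      refine (Run.loopT (l := []) rfl (by simpa using! r1) ih').mono ?_
      have := (hqg (g^[N a - (j + 1)] (i a))).trans (eval_mono qg b1)
      have := eval_mono qc b2
      simp only [T, add_mul]
      omega
  refine ⟨.seq ci (.seq test (.loop .d .skip (.seq cg test))),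
    fun a => ti a + (11 * B a + qc.eval (B a) + 24 + (N a * T (B a) + 1)), ?_, fun a r => ?_⟩
  · simp only [T]; fun_prop
  · have r1 := hloop a r (N a) le_rfl
    rw [Nat.sub_self] at r1
    have b1 := h3 a 0 (by omega)
    have := eval_mono qc b1
    refine (hci a r).seq (((htest _ r).mono ?_).seq r1)
    simp only [iterate_zero, _root_.id] at b1 this
    omega

end Vale.Agent.PT
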