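import Mathlib.Computability.TuringMachine.Computable
import Mathlib.Data.Nat.Bits
import Mathlib.Data.Rat.Defs

/-! Binary encodings of data and polynomial time on Mathlib's multi-stack Turing machines. -/

namespace Vale.Agent.PT

/-- binary trees, the universal data format -/
inductive BT : Type
  | nil : BT
  | cons : BT → BT → BT

/-- the self-delimiting bit string of a tree (preorder: `0` for a leaf, `1` for a node) -/
def BT.ser : BT → List Bool
  | .nil => [false]
  | .cons a b => true :: (a.ser ++ b.ser)

/-- types whose elements are represented by binary trees -/
class TEnc (α : Type) where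
  /-- the tree representing an element -/
  enc : α → BT

open TEnc

/-- the tree of a list of trees -/
def encList {α : Type} (e : α → BT) : List α → BT
  | [] => .nil
  | a :: l => .cons (e a) (encList e l)

instance instBT : TEnc BT := ⟨id⟩
instance instUnit : TEnc Unit := ⟨fun _ => .nil⟩
instance instBool : TEnc Bool := ⟨fun b => match b with | false => .nil | true => .cons .nil .nil⟩
instance instProd {α β : Type} [TEnc α] [TEnc β] : TEnc (α × β) :=
  ⟨fun p => .cons (enc p.1) (enc p.2)⟩
instance instList {α : Type} [TEnc α] : TEnc (List α) := ⟨encList enc⟩
instance instOption {α : Type} [TEnc α] : TEnc (Option α) :=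
  ⟨fun o => match o with | none => .nil | some a => .cons .nil (enc a)⟩
/-- natural numbers are written in binary -/
instance instNat : TEnc ℕ := ⟨fun n => enc n.bits⟩
/-- integers: sign bit and absolute value -/
instance instInt : TEnc ℤ := ⟨fun z => enc (decide (z < 0), z.natAbs)⟩
/-- rationals: reduced numerator and denominator -/
instance instRat : TEnc ℚ := ⟨fun q => enc (q.num, q.den)⟩

/-- the bit string encoding an element -/
def encode {α : Type} [TEnc α] (a : α) : List Bool := (enc a).ser

/-- `f` is computed, on binary encodings, by a Turing machine in polynomial time -/
def PolyTimeTM {α β : Type} [TEnc α] [TEnc β] (f : α → β) : Prop :=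
  Nonempty (Turing.TM2ComputableInPolyTime (encode (α := α)) (encode (α := β)) f)

end Vale.Agent.PT
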