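import Vale.Agent.Lib.PTime.Core

/-! Booleans, options and lists. -/

namespace Vale.Agent.PT

open Function TEnc

variable {α β γ δ σ : Type} [TEnc α] [TEnc β] [TEnc γ] [TEnc δ] [TEnc σ]

/-! ### conditionals -/

@[fun_prop] lemma PTime.cond {c : α → Bool} {f g : α → β} (hc : PTime c) (hf : PTime f)
    (hg : PTime g) : PTime fun a => cond (c a) (f a) (g a) :=
  (PTime.cas (h := fun a _ => f a) hc.enc hg (hf.comp PTime.fst_id)).of_eq fun a => by
    cases c a <;> rfl

@[fun_prop] lemma PTime.ite {p : α → Prop} {inst : ∀ a, Decidable (p a)} {f g : α → β}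
    (hc : PTime fun a => decide (p a)) (hf : PTime f) (hg : PTime g) :
    PTime fun a => if p a then f a else g a :=
  (hc.cond hf hg).of_eq fun a => by by_cases h : p a <;> simp [h]

@[fun_prop] lemma PTime.not {c : α → Bool} (hc : PTime c) : PTime fun a => !c a :=
  (hc.cond (.const false) (.const true)).of_eq fun a => by cases c a <;> rfl

@[fun_prop] lemma PTime.and {c d : α → Bool} (hc : PTime c) (hd : PTime d) :
    PTime fun a => c a && d a :=
  (hc.cond hd (.const false)).of_eq fun a => by cases c a <;> rfl

@[fun_prop] lemma PTime.or {c d : α → Bool} (hc : PTime c) (hd : PTime d) :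
    PTime fun a => c a || d a :=
  (hc.cond (.const true) hd).of_eq fun a => by cases c a <;> rfl

@[fun_prop] lemma PTime.xor {c d : α → Bool} (hc : PTime c) (hd : PTime d) :
    PTime fun a => xor (c a) (d a) :=
  (hc.cond hd.not hd).of_eq fun a => by cases c a <;> simp

@[fun_prop] lemma PTime.decide_eq_true {c : α → Bool} (hc : PTime c)
    {inst : ∀ a, Decidable (c a = true)} : PTime fun a => decide (c a = true) :=
  hc.of_eq fun a => by simp

@[fun_prop] lemma PTime.decide_not {p : α → Prop} [∀ a, Decidable (p a)]
    {inst : ∀ a, Decidable (¬ p a)} (hp : PTime fun a => decide (p a)) :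
    PTime fun a => decide (¬ p a) := hp.not.of_eq fun a => by simp

@[fun_prop] lemma PTime.decide_and {p q : α → Prop} [∀ a, Decidable (p a)] [∀ a, Decidable (q a)]
    {inst : ∀ a, Decidable (p a ∧ q a)} (hp : PTime fun a => decide (p a))
    (hq : PTime fun a => decide (q a)) : PTime fun a => decide (p a ∧ q a) :=
  (hp.and hq).of_eq fun a => by simp

@[fun_prop] lemma PTime.decide_or {p q : α → Prop} [∀ a, Decidable (p a)] [∀ a, Decidable (q a)]
    {inst : ∀ a, Decidable (p a ∨ q a)} (hp : PTime fun a => decide (p a))
    (hq : PTime fun a => decide (q a)) : PTime fun a => decide (p a ∨ q a) :=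
  (hp.or hq).of_eq fun a => by simp

@[fun_prop] lemma PTime.decide_imp {p q : α → Prop} [∀ a, Decidable (p a)] [∀ a, Decidable (q a)]
    {inst : ∀ a, Decidable (p a → q a)} (hp : PTime fun a => decide (p a))
    (hq : PTime fun a => decide (q a)) : PTime fun a => decide (p a → q a) :=
  (hp.not.or hq).of_eq fun a => by by_cases h : p a <;> simp [h]

/-! ### generic case analysis through the encoding -/

/-- A case distinction on a type with a `nil`-coded and a `cons`-coded part. -/
lemma PTime.cas_enc {f : α → β} (hf : PTime f) {g : α → γ} (hg : PTime g) {h : α → δ → γ}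
    (hh : PTime fun p : α × δ => h p.1 p.2) {F : α → γ}
    (hF : ∀ a, (TEnc.enc (f a) = .nil ∧ F a = g a) ∨
      ∃ x : δ, TEnc.enc (f a) ≠ .nil ∧ TEnc.enc x = TEnc.enc (f a) ∧ F a = h a x) : PTime F := by
  classical
  obtain ⟨c, t, ht, hc⟩ := _root_.id hf
  obtain ⟨c', t', q', hc'⟩ := hg
  obtain ⟨c'', t'', ⟨q, hq⟩, hc''⟩ := hh
  refine ⟨.seq dup (.seq c (.cases .a .skip c'
    (.seq (.push .a true) (.seq swap (.seq (.push .a true) c''))))),
    fun a => 11 * sz a + 4 + (t a + (t' a + (1 + (9 * (sz (f a) + sz a) + 6 +
      (1 + q.eval (sz a + sz (f a) + 1)))) + 1)), ?_, fun a r => ?_⟩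
  · have := hf.sz_PB
    have := PB.sz_id (α := α)
    fun_prop
  · refine (run_dup _ _).seq ((hc _ _).seq ?_)
    rcases hF a with ⟨h1, h2⟩ | ⟨z, h0, h1, h2⟩
    · rw [h2]
      exact (Run.casesF (l := encode a ++ r) (by simp [encode, h1, BT.ser])
        (by simpa using! hc' a r)).mono (by omega)
    · rw [h2]
      cases hfa : TEnc.enc (f a) with
      | nil => exact absurd hfa h0
      | cons x y =>
        have e1 : encode z = true :: (x.ser ++ y.ser) := by simp [encode, h1, hfa, BT.ser]
        have e2 : encode (f a) = true :: (x.ser ++ y.ser) := by simp [encode, hfa, BT.ser]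
        have h1 := hc'' (a, z) r
        have h2 := hq (a, z)
        have h3 := run_swap (.cons x y) (TEnc.enc a) r
        have h4 : Run (.seq (.push .a true) (.seq swap (.seq (.push .a true) c'')))
            (st (x.ser ++ y.ser ++ (encode a ++ r))) (st (encode (h a z) ++ r)) _ :=
          (Run.push .a true _).seq (Run.seq (by simpa [BT.ser] using! h3)
            ((Run.push .a true _).seq (by simpa [encode_prod, e1] using! h1)))
        refine (Run.casesT (l := x.ser ++ y.ser ++ (encode a ++ r)) (by simp [e2]; rfl)
          (by simpa using! h4)).mono ?_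
        have e : sz z = sz (f a) := by simp [sz, e1, e2]
        have e' : sz (f a) = x.ser.length + y.ser.length + 1 := by simp [sz, e2]
        rw [sz_prod, e] at h2
        have e'' : (TEnc.enc a).ser.length = sz a := rfl
        omega

/-! ### options -/

@[fun_prop] lemma PTime.some {f : α → β} (hf : PTime f) : PTime fun a => some (f a) :=
  ((PTime.const ()).prodMk hf).of_enc fun _ => rfl

@[fun_prop] lemma PTime.option_elim {o : α → Option β} {g : α → γ} {h : α → β → γ} (ho : PTime o)
    (hg : PTime g) (hh : PTime fun p : α × β => h p.1 p.2) :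
    PTime fun a => (o a).elim (g a) (h a) := by
  refine ho.cas_enc hg (δ := Unit × β) (h := fun a x => h a x.2)
    (hh.comp (f := fun p : α × Unit × β => (p.1, p.2.2)) (by fun_prop)) fun a => ?_
  cases o a with
  | none => exact Or.inl ⟨rfl, rfl⟩
  | some b => exact Or.inr ⟨((), b), by simp [TEnc.enc], rfl, rfl⟩

@[fun_prop] lemma PTime.getD {o : α → Option β} {g : α → β} (ho : PTime o) (hg : PTime g) :
    PTime fun a => (o a).getD (g a) :=
  (ho.option_elim hg (h := fun _ b => b) PTime.snd_id).of_eq fun a => by cases o a <;> rfl

@[fun_prop] lemma PTime.option_map {o : α → Option β} {h : α → β → γ} (ho : PTime o)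
    (hh : PTime fun p : α × β => h p.1 p.2) : PTime fun a => (o a).map (h a) :=
  (ho.option_elim (.const none) (h := fun a b => Option.some (h a b)) hh.some).of_eq fun a => by
    cases o a <;> rfl

@[fun_prop] lemma PTime.option_bind {o : α → Option β} {h : α → β → Option γ} (ho : PTime o)
    (hh : PTime fun p : α × β => h p.1 p.2) : PTime fun a => (o a).bind (h a) :=
  (ho.option_elim (.const none) hh).of_eq fun a => by cases o a <;> rfl

@[fun_prop] lemma PTime.isSome {o : α → Option β} (ho : PTime o) : PTime fun a => (o a).isSome :=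
  (ho.option_elim (.const false) (h := fun _ _ => true) (.const true)).of_eq fun a => by
    cases o a <;> rfl

@[fun_prop] lemma PTime.isNone {o : α → Option β} (ho : PTime o) : PTime fun a => (o a).isNone :=
  ho.isSome.not.of_eq fun a => by cases o a <;> rfl

/-! ### lists -/

@[simp] lemma sz_nil : sz ([] : List α) = 1 := rfl
@[simp] lemma sz_cons (a : α) (l : List α) : sz (a :: l) = sz a + sz l + 1 := sz_prod a l
@[simp] lemma sz_unit (u : Unit) : sz u = 1 := rfl
lemma sz_bool_le (b : Bool) : sz b ≤ 3 := by cases b <;> decide
@[simp] lemma sz_none : sz (none : Option α) = 1 := rfl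
@[simp] lemma sz_some (a : α) : sz (Option.some a) = sz a + 2 := by
  have := sz_prod () a; simp only [sz_unit] at this; exact this.trans (by omega)

lemma sz_list (l : List α) : sz l = (l.map fun a => sz a + 1).sum + 1 := by
  induction l with
  | nil => rfl
  | cons a l ih => simp [ih]; omega

lemma length_lt_sz (l : List α) : l.length < sz l := by
  induction l with
  | nil => simp
  | cons a l ih => simp; omega

lemma sz_le_of_mem {l : List α} {a : α} (h : a ∈ l) : sz a ≤ sz l := by
  induction h with
  | head => simp; omega
  | tail _ _ ih => simp; omega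

@[simp] lemma sz_append (l l' : List α) : sz (l ++ l') + 1 = sz l + sz l' := by
  simp only [sz_list, List.map_append, List.sum_append]; omega

@[simp] lemma sz_reverse (l : List α) : sz l.reverse = sz l := by
  simp [sz_list, List.sum_reverse]

lemma sz_sublist {l l' : List α} (h : l.Sublist l') : sz l ≤ sz l' := by
  induction h with
  | slnil => rfl
  | cons _ _ ih => simp; omega
  | cons_cons _ _ ih => simp; omega

lemma sz_list_le (l : List α) {B : ℕ} (h : ∀ a ∈ l, sz a ≤ B) : sz l ≤ l.length * (B + 1) + 1 := by
  induction l with
  | nil => simp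
  | cons a l ih =>
    have := ih fun x hx => h x (List.mem_cons_of_mem _ hx)
    have := h a List.mem_cons_self
    simp [add_mul]; omega

@[fun_prop] lemma PB.length {l : α → List β} (hl : PTime l) : PB fun a => (l a).length :=
  hl.sz_PB.of_le fun _ => (length_lt_sz _).le

@[fun_prop] lemma PTime.cons {f : α → β} {l : α → List β} (hf : PTime f) (hl : PTime l) :
    PTime fun a => f a :: l a := (hf.prodMk hl).of_enc fun _ => rfl

/-- case distinction on a list -/
def lcas {β γ : Type} (l : List β) (x : γ) (y : β → List β → γ) : γ :=
  match l with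
  | [] => x
  | b :: l => y b l

@[simp] lemma lcas_nil {β γ : Type} (x : γ) (y : β → List β → γ) : lcas [] x y = x := rfl
@[simp] lemma lcas_cons {β γ : Type} (b l) (x : γ) (y : β → List β → γ) :
    lcas (b :: l) x y = y b l := rfl

@[fun_prop] lemma PTime.lcas {l : α → List β} {g : α → γ} {h : α → β → List β → γ} (hl : PTime l)
    (hg : PTime g) (hh : PTime fun p : α × β × List β => h p.1 p.2.1 p.2.2) :
    PTime fun a => lcas (l a) (g a) (h a) := by
  refine hl.cas_enc hg (δ := β × List β) (h := fun a x => h a x.1 x.2) hh fun a => ?_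
  cases l a with
  | nil => exact Or.inl ⟨rfl, rfl⟩
  | cons b l => exact Or.inr ⟨(b, l), by simp [TEnc.enc, encList], rfl, rfl⟩

@[fun_prop] lemma PTime.tail {l : α → List β} (hl : PTime l) : PTime fun a => (l a).tail :=
  (hl.lcas (.const []) (h := fun _ _ t => t) (by fun_prop)).of_eq fun a => by cases l a <;> rfl

@[fun_prop] lemma PTime.head? {l : α → List β} (hl : PTime l) : PTime fun a => (l a).head? :=
  (hl.lcas (.const none) (h := fun _ b _ => Option.some b) (by fun_prop)).of_eq fun a => by
    cases l a <;> rfl

@[fun_prop] lemma PTime.headD {l : α → List β} {g : α → β} (hl : PTime l) (hg : PTime g) :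
    PTime fun a => (l a).headD (g a) :=
  (hl.lcas hg (h := fun _ b _ => b) (by fun_prop)).of_eq fun a => by cases l a <;> rfl

@[fun_prop] lemma PTime.isEmpty {l : α → List β} (hl : PTime l) : PTime fun a => (l a).isEmpty :=
  (hl.lcas (.const true) (h := fun _ _ _ => false) (by fun_prop)).of_eq fun a => by
    cases l a <;> rfl

/-- Left fold with a polynomial bound on all intermediate states. -/
theorem PTime.foldl {l : α → List β} {i : α → σ} {f : α → σ → β → σ} (hl : PTime l) (hi : PTime i)
    (hf : PTime fun p : α × σ × β => f p.1 p.2.1 p.2.2) (B : α → ℕ) (hB : PB B)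
    (h : ∀ a k, sz (((l a).take k).foldl (f a) (i a)) ≤ B a) :
    PTime fun a => (l a).foldl (f a) (i a) := by
  let g : List β × α × σ → List β × α × σ := fun s =>
    PT.lcas s.1 s fun b t => (t, s.2.1, f s.2.1 s.2.2 b)
  have hg : PTime g := by
    refine PTime.lcas (by fun_prop) (by fun_prop) ?_
    refine PTime.prodMk (by fun_prop) (PTime.prodMk (by fun_prop) ?_)
    exact hf.comp (f := fun p : (List β × α × σ) × β × List β => (p.1.2.1, p.1.2.2, p.2.1))
      (by fun_prop)
  have key : ∀ a k, g^[k] (l a, a, i a) = ((l a).drop k, a, ((l a).take k).foldl (f a) (i a)) := by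
    intro a k
    induction k with
    | zero => simp
    | succ k ih =>
      rw [iterate_succ_apply', ih]
      by_cases hk : k < (l a).length
      · simp only [g, List.drop_eq_getElem_cons hk, lcas_cons, List.take_succ_eq_append_getElem hk,
          List.foldl_append, List.foldl_cons, List.foldl_nil]
      · have hk' := not_lt.1 hk
        simp only [g, List.drop_eq_nil_of_le hk', lcas_nil, List.take_of_length_le hk',
          List.drop_eq_nil_of_le (Nat.le_succ_of_le hk'),
          List.take_of_length_le (Nat.le_succ_of_le hk')]
  have main := PTime.loop (c := fun s => !s.1.isEmpty) hg (by fun_prop)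
    (i := fun a => (l a, a, i a)) (by fun_prop) (fun a => (l a).length) (by fun_prop)
    (fun a => sz (l a) + sz a + B a + 2) (by have := PB.sz_id (α := α); fun_prop)
    (fun a k hk => by simp [key, hk]) (fun a => by simp [key])
    (fun a k _ => by
      have := h a k
      have := sz_sublist (List.drop_sublist k (l a))
      simp [key]; omega)
  exact main.snd.snd.of_eq fun a => by simp [key]

/-- Left fold whose step increases the size at most by a polynomial in the other inputs. -/
theorem PTime.foldl_add {l : α → List β} {i : α → σ} {f : α → σ → β → σ} (hl : PTime l)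
    (hi : PTime i) (hf : PTime fun p : α × σ × β => f p.1 p.2.1 p.2.2) (B : α → ℕ) (hB : PB B)
    (h : ∀ a s, ∀ b ∈ l a, sz (f a s b) ≤ sz s + B a) :
    PTime fun a => (l a).foldl (f a) (i a) := by
  refine hl.foldl hi hf (fun a => sz (i a) + (l a).length * B a) (by fun_prop) fun a k => ?_
  have : ∀ (t : List β) s, (∀ b ∈ t, b ∈ l a) → sz (t.foldl (f a) s) ≤ sz s + t.length * B a := by
    intro t
    induction t with
    | nil => simp
    | cons b t ih =>
      intro s ht
      have h1 := ih (f a s b) fun x hx => ht x (List.mem_cons_of_mem _ hx)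
      have h2 := h a s b (ht b List.mem_cons_self)
      simp [add_mul]; omega
  refine (this _ _ fun b hb => List.mem_of_mem_take hb).trans ?_
  gcongr
  exact List.length_take_le' _ _

/-- a polynomial bound for a two-argument function over the members of a list -/
lemma PB.exists_mem_bound {l : α → List β} (hl : PTime l) {g : α × β → ℕ} (hg : PB g) :
    ∃ B : α → ℕ, PB B ∧ ∀ a, ∀ b ∈ l a, g (a, b) ≤ B a := by
  obtain ⟨q, hq⟩ := hg
  refine ⟨fun a => q.eval (sz a + sz (l a) + 1), by have := PB.sz_id (α := α); fun_prop,
    fun a b hb => (hq _).trans (eval_mono q ?_)⟩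
  have := sz_le_of_mem hb
  simp; omega

@[fun_prop] lemma PTime.reverseAux {l m : α → List β} (hl : PTime l) (hm : PTime m) :
    PTime fun a => (l a).reverseAux (m a) := by
  refine (hl.foldl_add hm (f := fun _ s b => b :: s) (by fun_prop) (fun a => sz (l a) + 1)
    (by fun_prop) fun a s b hb => ?_).of_eq fun a => ?_
  · have := sz_le_of_mem hb
    simp; omega
  · generalize m a = s
    induction l a generalizing s with
    | nil => rfl
    | cons b t ih => exact ih _

@[fun_prop] lemma PTime.reverse {l : α → List β} (hl : PTime l) : PTime fun a => (l a).reverse :=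
  hl.reverseAux (.const [])

@[fun_prop] lemma PTime.append {l m : α → List β} (hl : PTime l) (hm : PTime m) :
    PTime fun a => l a ++ m a :=
  (hl.reverse.reverseAux hm).of_eq fun a => by simp [List.reverseAux_eq]

@[fun_prop] lemma PTime.flatMap {l : α → List β} {f : α → β → List γ} (hl : PTime l)
    (hf : PTime fun p : α × β => f p.1 p.2) : PTime fun a => (l a).flatMap (f a) := by
  obtain ⟨B, hB, h⟩ := PB.exists_mem_bound hl hf.sz_PB
  refine (hl.foldl_add (.const []) (f := fun a s b => s ++ f a b)
    (PTime.append (by fun_prop) (hf.comp (f := fun p : α × List γ × β => (p.1, p.2.2))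
      (by fun_prop))) B hB fun a s b hb => ?_).of_eq fun a => ?_
  · have := h a b hb
    have := sz_append s (f a b)
    simp only at *; omega
  · have : ∀ s, (l a).foldl (fun s b => s ++ f a b) s = s ++ (l a).flatMap (f a) := by
      induction l a with
      | nil => simp
      | cons b t ih => simp [ih]
    simp [this]

@[fun_prop] lemma PTime.map {l : α → List β} {f : α → β → γ} (hl : PTime l)
    (hf : PTime fun p : α × β => f p.1 p.2) : PTime fun a => (l a).map (f a) :=
  (hl.flatMap (f := fun a b => [f a b]) (hf.cons (.const []))).of_eq fun a => by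
    induction l a <;> simp_all

@[fun_prop] lemma PTime.flatten {l : α → List (List β)} (hl : PTime l) :
    PTime fun a => (l a).flatten :=
  (hl.flatMap (f := fun _ b => b) PTime.snd_id).of_eq fun a => by simp

@[fun_prop] lemma PTime.filterMap {l : α → List β} {f : α → β → Option γ} (hl : PTime l)
    (hf : PTime fun p : α × β => f p.1 p.2) : PTime fun a => (l a).filterMap (f a) :=
  (hl.flatMap (f := fun a b => (f a b).elim [] fun c => [c])
    (hf.option_elim (.const []) (h := fun _ c => [c]) (by fun_prop))).of_eq fun a => by
    induction l a with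
    | nil => rfl
    | cons b t ih => cases h : f a b <;> simp_all

@[fun_prop] lemma PTime.filter {l : α → List β} {f : α → β → Bool} (hl : PTime l)
    (hf : PTime fun p : α × β => f p.1 p.2) : PTime fun a => (l a).filter (f a) :=
  (hl.flatMap (f := fun a b => bif f a b then [b] else []) (hf.cond (by fun_prop) (.const []))).of_eq
    fun a => by
    induction l a with
    | nil => rfl
    | cons b t ih => cases h : f a b <;> simp_all

@[fun_prop] lemma PTime.any {l : α → List β} {f : α → β → Bool} (hl : PTime l)
    (hf : PTime fun p : α × β => f p.1 p.2) : PTime fun a => (l a).any (f a) :=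
  (hl.filter hf).isEmpty.not.of_eq fun a => by
    rw [Bool.eq_iff_iff]; simp [List.filter_eq_nil_iff]

@[fun_prop] lemma PTime.all {l : α → List β} {f : α → β → Bool} (hl : PTime l)
    (hf : PTime fun p : α × β => f p.1 p.2) : PTime fun a => (l a).all (f a) :=
  (hl.any (f := fun a b => !f a b) hf.not).not.of_eq fun a => by
    rw [Bool.eq_iff_iff]; simp

@[fun_prop] lemma PTime.find? {l : α → List β} {f : α → β → Bool} (hl : PTime l)
    (hf : PTime fun p : α × β => f p.1 p.2) : PTime fun a => (l a).find? (f a) :=
  (hl.filter hf).head?.of_eq fun a => by simp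

/-- Right fold with a polynomial bound on all intermediate states. -/
theorem PTime.foldr {l : α → List β} {i : α → σ} {f : α → β → σ → σ} (hl : PTime l) (hi : PTime i)
    (hf : PTime fun p : α × β × σ => f p.1 p.2.1 p.2.2) (B : α → ℕ) (hB : PB B)
    (h : ∀ a k, sz (((l a).drop k).foldr (f a) (i a)) ≤ B a) :
    PTime fun a => (l a).foldr (f a) (i a) := by
  refine (hl.reverse.foldl hi (f := fun a s b => f a b s)
    (hf.comp (f := fun p : α × σ × β => (p.1, p.2.2, p.2.1)) (by fun_prop)) B hB
    fun a k => ?_).of_eq fun a => by simp
  rw [List.take_reverse, List.foldl_reverse]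
  exact h a _

theorem PTime.foldr_add {l : α → List β} {i : α → σ} {f : α → β → σ → σ} (hl : PTime l)
    (hi : PTime i) (hf : PTime fun p : α × β × σ => f p.1 p.2.1 p.2.2) (B : α → ℕ) (hB : PB B)
    (h : ∀ a s, ∀ b ∈ l a, sz (f a b s) ≤ sz s + B a) :
    PTime fun a => (l a).foldr (f a) (i a) :=
  (hl.reverse.foldl_add hi (f := fun a s b => f a b s)
    (hf.comp (f := fun p : α × σ × β => (p.1, p.2.2, p.2.1)) (by fun_prop)) B hB
    fun a s b hb => h a s b (List.mem_reverse.1 hb)).of_eq fun a => by simp

/-- Iteration `(u a).length` times, with a polynomial bound on all intermediate states. -/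
theorem PTime.iterate_len {u : α → List β} {i : α → σ} {f : α → σ → σ} (hu : PTime u) (hi : PTime i)
    (hf : PTime fun p : α × σ => f p.1 p.2) (B : α → ℕ) (hB : PB B)
    (h : ∀ a, ∀ k ≤ (u a).length, sz ((f a)^[k] (i a)) ≤ B a) :
    PTime fun a => (f a)^[(u a).length] (i a) := by
  have key : ∀ a (t : List β) s, t.foldl (fun s _ => f a s) s = (f a)^[t.length] s := by
    intro a t
    induction t with
    | nil => simp
    | cons b t ih => simp [ih]
  refine (hu.foldl hi (f := fun a s _ => f a s)
    (hf.comp (f := fun p : α × σ × β => (p.1, p.2.1)) (by fun_prop)) B hB fun a k => ?_).of_eq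
    fun a => key _ _ _
  rw [key]
  exact h a _ (List.length_take_le' _ _)

@[fun_prop] lemma PTime.zip {l : α → List β} {m : α → List γ} (hl : PTime l) (hm : PTime m) :
    PTime fun a => (l a).zip (m a) := by
  have key : ∀ (t : List β) (u : List γ) (acc : List (β × γ)),
      (t.foldl (fun (s : List γ × List (β × γ)) b =>
        PT.lcas s.1 s fun c r => (r, (b, c) :: s.2)) (u, acc)).2 = (t.zip u).reverse ++ acc := by
    intro t
    induction t with
    | nil => simp
    | cons b t ih => intro u acc; cases u <;> simp [ih]
  refine (hl.foldl_add (hm.prodMk (.const ([] : List (β × γ)))) (f := fun _ s b =>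
    PT.lcas s.1 s fun c r => (r, (b, c) :: s.2)) (by fun_prop) (fun a => sz (l a) + 1)
    (by fun_prop) ?_).snd.reverse.of_eq fun a => by simp [key]
  rintro a ⟨u, acc⟩ b hb
  have := sz_le_of_mem hb
  cases u <;> simp; omega

@[fun_prop] lemma PTime.zipWith {l : α → List β} {m : α → List γ} {f : α → β → γ → δ}
    (hl : PTime l) (hm : PTime m) (hf : PTime fun p : α × β × γ => f p.1 p.2.1 p.2.2) :
    PTime fun a => List.zipWith (f a) (l a) (m a) :=
  ((hl.zip hm).map (f := fun a p => f a p.1 p.2) hf).of_eq fun a => by
    rw [List.zip_eq_zipWith, List.map_zipWith]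

@[fun_prop] lemma PTime.product {l : α → List β} {m : α → List γ} (hl : PTime l) (hm : PTime m) :
    PTime fun a => (l a).product (m a) := by
  unfold List.product
  fun_prop

lemma PTime.drop_len {l : α → List β} {u : α → List γ} (hl : PTime l) (hu : PTime u) :
    PTime fun a => (l a).drop (u a).length := by
  have key : ∀ (t : List β) k, List.tail^[k] t = t.drop k := by
    intro t k
    induction k with
    | zero => rfl
    | succ k ih => rw [iterate_succ_apply', ih, List.tail_drop]
  exact (hu.iterate_len hl (f := fun _ s => s.tail) (by fun_prop) _ hl.sz_PB fun a k _ => by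
    rw [key]; exact sz_sublist (List.drop_sublist _ _)).of_eq fun a => key _ _

lemma PTime.take_len {l : α → List β} {u : α → List γ} (hl : PTime l) (hu : PTime u) :
    PTime fun a => (l a).take (u a).length :=
  ((hl.zip hu).map (f := fun _ p => p.1) (by fun_prop)).of_eq fun a => by
    generalize u a = v
    induction l a generalizing v with
    | nil => simp
    | cons b t ih => cases v <;> simp_all

lemma PTime.replicate_len {u : α → List γ} {g : α → β} (hu : PTime u) (hg : PTime g) :
    PTime fun a => List.replicate (u a).length (g a) :=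
  (hu.map (f := fun a _ => g a) (by fun_prop)).of_eq fun a => by simp

@[fun_prop] lemma PTime.getLast? {l : α → List β} (hl : PTime l) : PTime fun a => (l a).getLast? :=
  hl.reverse.head?.of_eq fun a => by simp

@[fun_prop] lemma PTime.dropWhile {l : α → List β} {f : α → β → Bool} (hl : PTime l)
    (hf : PTime fun p : α × β => f p.1 p.2) : PTime fun a => (l a).dropWhile (f a) := by
  let g : α → List β → List β := fun a s => PT.lcas s s fun b t => bif f a b then t else s
  have key : ∀ a k (t : List β), t.length ≤ k → (g a)^[k] t = t.dropWhile (f a) := by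
    intro a k
    induction k with
    | zero => intro t ht; simp_all
    | succ k ih =>
      intro t ht
      cases t with
      | nil => exact iterate_fixed rfl _
      | cons b t =>
        cases h : f a b
        · rw [List.dropWhile_cons_of_neg (by simp [h])]
          exact iterate_fixed (by simp [g, h]) _
        · rw [iterate_succ_apply, List.dropWhile_cons_of_pos h, ← ih t (by simpa using ht)]
          simp [g, h]
  have hsz : ∀ a k (t : List β), sz ((g a)^[k] t) ≤ sz t := by
    intro a k
    induction k with
    | zero => simp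
    | succ k ih =>
      intro t
      rw [iterate_succ_apply]
      refine (ih _).trans ?_
      cases t with
      | nil => simp [g]
      | cons b t => cases h : f a b <;> simp [g, h]; omega
  refine (hl.iterate_len hl (f := g) ?_ _ hl.sz_PB fun a k _ => hsz _ _ _).of_eq
    fun a => key _ _ _ le_rfl
  refine PTime.lcas (by fun_prop) (by fun_prop) (PTime.cond ?_ (by fun_prop) (by fun_prop))
  exact hf.comp (f := fun p : (α × List β) × β × List β => (p.1.1, p.2.1)) (by fun_prop)

/-! ### equality tests -/

/-- serialisation is computable -/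
lemma PTime.ser_id : PTime fun t : BT => t.ser := by
  let g : List BT × List Bool → List BT × List Bool := fun s =>
    PT.lcas s.1 s fun t r => t.cas (r, false :: s.2) fun p => (p.1 :: p.2 :: r, true :: s.2)
  have hg : PTime g := by
    refine PTime.lcas (by fun_prop) (by fun_prop) ?_
    exact PTime.cas (by fun_prop) (by fun_prop) (by fun_prop)
  have key : ∀ (t : BT) r acc, g^[t.ser.length] (t :: r, acc) = (r, t.ser.reverse ++ acc) := by
    intro t
    induction t with
    | nil => intro r acc; rfl
    | cons x y ihx ihy =>
      intro r acc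
      have : (BT.cons x y).ser.length = y.ser.length + x.ser.length + 1 := by simp [BT.ser]; omega
      rw [this, iterate_succ_apply, iterate_add_apply]
      erw [ihx, ihy]
      simp [BT.ser]
  let w : List BT × List Bool → ℕ := fun s => (s.1.map fun t => t.ser.length).sum
  have hstep : ∀ s, 0 < w s → w (g s) + 1 = w s ∧ sz (g s) ≤ sz s + 6 := by
    rintro ⟨l, acc⟩ h
    cases l with
    | nil => simp [w] at h
    | cons t r =>
      cases t with
      | nil =>
        have := sz_bool_le false
        simp [w, g, BT.cas, BT.ser]; omega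
      | cons x y =>
        have e : sz (BT.cons x y) = sz x + sz y + 1 := sz_prod x y
        have := sz_bool_le true
        simp [w, g, BT.cas, BT.ser, e]; omega
  have hiter : ∀ (t : BT) k, k ≤ t.ser.length → w (g^[k] ([t], [])) + k = t.ser.length ∧
      sz (g^[k] ([t], [])) ≤ sz t + 4 + 6 * k := by
    intro t k
    induction k with
    | zero => intro _; simp [w]
    | succ k ih =>
      intro hk
      obtain ⟨h1, h2⟩ := ih (by omega)
      obtain ⟨h3, h4⟩ := hstep (g^[k] ([t], [])) (by omega)
      rw [iterate_succ_apply']
      omega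
  have main := PTime.loop (c := fun s => !s.1.isEmpty) hg (by fun_prop)
    (i := fun t : BT => ([t], ([] : List Bool))) (by fun_prop) (fun t => t.ser.length) PB.sz_id
    (fun t => sz t + 4 + 6 * sz t) (by have := PB.sz_id (α := BT); fun_prop)
    (fun t k hk => by
      have := (hiter t k hk.le).1
      cases h : (g^[k] ([t], [])).1 with
      | nil => simp [w, h] at this; omega
      | cons => rfl) (fun t => by simp [key])
    (fun t k hk => by
      have := (hiter t k hk).2
      have e : sz t = t.ser.length := rfl
      omega)
  exact main.snd.reverse.of_eq fun t => by simp [key]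

@[fun_prop] lemma PTime.encode {f : α → β} (hf : PTime f) : PTime fun a => encode (f a) :=
  PTime.ser_id.comp hf.enc

lemma BT.ser_append_inj : ∀ (s t : BT) (x y : List Bool), s.ser ++ x = t.ser ++ y → s = t ∧ x = y
  | .nil, .nil, _, _, h => by simpa [BT.ser] using h
  | .nil, .cons _ _, _, _, h => by simp [BT.ser] at h
  | .cons _ _, .nil, _, _, h => by simp [BT.ser] at h
  | .cons a b, .cons c d, x, y, h => by
    simp only [BT.ser, List.cons_append, List.append_assoc, List.cons.injEq, true_and] at h
    obtain ⟨rfl, h1⟩ := BT.ser_append_inj _ _ _ _ h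
    obtain ⟨rfl, h2⟩ := BT.ser_append_inj _ _ _ _ h1
    exact ⟨rfl, h2⟩

lemma BT.ser_inj {s t : BT} (h : s.ser = t.ser) : s = t :=
  (BT.ser_append_inj s t [] [] (by simpa using h)).1

lemma PTime.bits_eq {l m : α → List Bool} (hl : PTime l) (hm : PTime m) :
    PTime fun a => decide (l a = m a) := by
  have h1 := hl.drop_len hm
  have h2 := hm.drop_len hl
  refine PTime.of_eq (f := fun a => ((l a).drop (m a).length).isEmpty &&
    ((m a).drop (l a).length).isEmpty && ((l a).zip (m a)).all fun p => !(Bool.xor p.1 p.2))
    (by fun_prop) fun a => ?_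
  generalize m a = v
  induction l a generalizing v with
  | nil => cases v <;> simp
  | cons b t ih =>
    cases v with
    | nil => simp
    | cons c v =>
      have := ih v
      simp only [List.length_cons, List.drop_succ_cons, List.zip_cons_cons, List.all_cons,
        List.cons.injEq, Bool.decide_and, ← this]
      cases b <;> cases c <;> simp

/-- encodings that are injective -/
class TEncInj (α : Type) [TEnc α] : Prop where
  inj : Injective (TEnc.enc (α := α))

instance : TEncInj BT := ⟨injective_id⟩
instance : TEncInj Unit := ⟨fun _ _ _ => rfl⟩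
instance : TEncInj Bool := ⟨fun a b h => by cases a <;> cases b <;> first | rfl | cases h⟩
instance [TEncInj α] [TEncInj β] : TEncInj (α × β) := ⟨fun a b h => by
  injection h with h1 h2
  exact Prod.ext (TEncInj.inj h1) (TEncInj.inj h2)⟩
instance [TEncInj α] : TEncInj (Option α) := ⟨fun a b h => by
  cases a <;> cases b
  · rfl
  · cases h
  · cases h
  · injection h with _ h2
    rw [TEncInj.inj h2]⟩
instance [TEncInj α] : TEncInj (List α) := ⟨fun a b h => by
  induction a generalizing b with
  | nil => cases b <;> first | rfl | cases h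
  | cons x a ih =>
    cases b with
    | nil => cases h
    | cons y b =>
      injection h with h1 h2
      rw [TEncInj.inj h1, ih b h2]⟩

@[fun_prop] lemma PTime.decide_eq [TEncInj β] {f g : α → β} (hf : PTime f) (hg : PTime g)
    {inst : ∀ a, Decidable (f a = g a)} : PTime fun a => decide (f a = g a) :=
  (hf.encode.bits_eq hg.encode).of_eq fun a => by
    rw [decide_eq_decide]
    exact ⟨fun h => TEncInj.inj (BT.ser_inj h), fun h => by rw [h]⟩

@[fun_prop] lemma PTime.decide_ne [TEncInj β] {f g : α → β} (hf : PTime f) (hg : PTime g)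
    {inst : ∀ a, Decidable (f a ≠ g a)} : PTime fun a => decide (f a ≠ g a) := by
  classical
  exact (hf.decide_eq hg (inst := fun _ => Classical.propDecidable _)).not.of_eq fun a => by simp

@[fun_prop] lemma PTime.beq [TEncInj β] [BEq β] [LawfulBEq β] {f g : α → β} (hf : PTime f)
    (hg : PTime g) : PTime fun a => f a == g a := by
  classical
  exact (hf.decide_eq hg (inst := fun _ => Classical.propDecidable _)).of_eq fun a => by
    rw [Bool.eq_iff_iff]; simp

@[fun_prop] lemma PTime.decide_mem [TEncInj β] {f : α → β} {l : α → List β} (hf : PTime f)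
    (hl : PTime l) {inst : ∀ a, Decidable (f a ∈ l a)} : PTime fun a => decide (f a ∈ l a) := by
  classical
  refine (hl.any (f := fun a b => decide (f a = b)) (by fun_prop)).of_eq fun a => ?_
  rw [Bool.eq_iff_iff]; simp

@[fun_prop] lemma PTime.decide_forall_mem {l : α → List β} {p : α → β → Prop}
    [∀ a b, Decidable (p a b)] (hl : PTime l) (hp : PTime fun q : α × β => decide (p q.1 q.2))
    {inst : ∀ a, Decidable (∀ b ∈ l a, p a b)} : PTime fun a => decide (∀ b ∈ l a, p a b) := by
  refine (hl.all (f := fun a b => decide (p a b)) hp).of_eq fun a => ?_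
  rw [Bool.eq_iff_iff]; simp

@[fun_prop] lemma PTime.decide_exists_mem {l : α → List β} {p : α → β → Prop}
    [∀ a b, Decidable (p a b)] (hl : PTime l) (hp : PTime fun q : α × β => decide (p q.1 q.2))
    {inst : ∀ a, Decidable (∃ b ∈ l a, p a b)} : PTime fun a => decide (∃ b ∈ l a, p a b) := by
  refine (hl.any (f := fun a b => decide (p a b)) hp).of_eq fun a => ?_
  rw [Bool.eq_iff_iff]; simp

end Vale.Agent.PT
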