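import Mathlib
import Vale.Agent.Lib.PTime.Defs

/-! A structured language on four Boolean stacks and its compilation to `Turing.FinTM2`. -/

namespace Vale.Agent.PT

open Turing Function

/-- the four stacks -/
inductive R : Type
  | a | b | c | d
  deriving DecidableEq

instance : Fintype R := ⟨{.a, .b, .c, .d}, fun x => by cases x <;> simp⟩

abbrev St := R → List Bool

def mk (a b c d : List Bool) : St
  | .a => a
  | .b => b
  | .c => c
  | .d => d

@[simp] lemma mk_a (a b c d) : mk a b c d .a = a := rfl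
@[simp] lemma mk_b (a b c d) : mk a b c d .b = b := rfl
@[simp] lemma mk_c (a b c d) : mk a b c d .c = c := rfl
@[simp] lemma mk_d (a b c d) : mk a b c d .d = d := rfl
@[simp] lemma upd_a (a b c d x) : update (mk a b c d) .a x = mk x b c d := by
  funext k; cases k <;> simp
@[simp] lemma upd_b (a b c d x) : update (mk a b c d) .b x = mk a x c d := by
  funext k; cases k <;> simp
@[simp] lemma upd_c (a b c d x) : update (mk a b c d) .c x = mk a b x d := by
  funext k; cases k <;> simp
@[simp] lemma upd_d (a b c d x) : update (mk a b c d) .d x = mk a b c x := by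
  funext k; cases k <;> simp

inductive Cmd : Type
  | push (k : R) (x : Bool)
  | skip
  | seq (p q : Cmd)
  | cases (k : R) (p0 pf pt : Cmd)
  | loop (k : R) (pf pt : Cmd)

inductive Exec : Cmd → St → St → ℕ → Prop
  | push (k x S) : Exec (.push k x) S (update S k (x :: S k)) 1
  | skip (S) : Exec .skip S S 1
  | seq {p q S S' S'' n m} : Exec p S S' n → Exec q S' S'' m → Exec (.seq p q) S S'' (n + m)
  | casesE {k p0 pf pt S S' n} : S k = [] → Exec p0 S S' n → Exec (.cases k p0 pf pt) S S' (n + 1)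
  | casesF {k p0 pf pt S S' n l} : S k = false :: l → Exec pf (update S k l) S' n →
      Exec (.cases k p0 pf pt) S S' (n + 1)
  | casesT {k p0 pf pt S S' n l} : S k = true :: l → Exec pt (update S k l) S' n →
      Exec (.cases k p0 pf pt) S S' (n + 1)
  | loopE {k pf pt S} : S k = [] → Exec (.loop k pf pt) S S 1
  | loopF {k pf pt S S' S'' n m l} : S k = false :: l → Exec pf (update S k l) S' n →
      Exec (.loop k pf pt) S' S'' m → Exec (.loop k pf pt) S S'' (n + m + 1)
  | loopT {k pf pt S S' S'' n m l} : S k = true :: l → Exec pt (update S k l) S' n →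
      Exec (.loop k pf pt) S' S'' m → Exec (.loop k pf pt) S S'' (n + m + 1)

def Lab : Cmd → Type
  | .push _ _ => Unit
  | .skip => Unit
  | .seq p q => Lab p ⊕ Lab q
  | .cases _ p0 pf pt => Unit ⊕ Lab p0 ⊕ Lab pf ⊕ Lab pt
  | .loop _ pf pt => Unit ⊕ Lab pf ⊕ Lab pt

lemma finite_Lab : ∀ c, Finite (Lab c)
  | .push _ _ => inferInstanceAs (Finite Unit)
  | .skip => inferInstanceAs (Finite Unit)
  | .seq p q => have := finite_Lab p; have := finite_Lab q
    inferInstanceAs (Finite (Lab p ⊕ Lab q))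
  | .cases _ p0 pf pt => have := finite_Lab p0; have := finite_Lab pf; have := finite_Lab pt
    inferInstanceAs (Finite (Unit ⊕ Lab p0 ⊕ Lab pf ⊕ Lab pt))
  | .loop _ pf pt => have := finite_Lab pf; have := finite_Lab pt
    inferInstanceAs (Finite (Unit ⊕ Lab pf ⊕ Lab pt))

def entry : ∀ c, Lab c
  | .push _ _ => ()
  | .skip => ()
  | .seq p _ => Sum.inl (entry p)
  | .cases _ _ _ _ => Sum.inl ()
  | .loop _ _ _ => Sum.inl ()

abbrev Stm (Λ : Type) := TM2.Stmt (fun _ : R => Bool) Λ (Option Bool)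

def jump {Λ : Type} : Option Λ → Stm Λ
  | none => .halt
  | some l => .goto fun _ => l

def br {Λ : Type} (k : R) (q0 qf qt : Option Λ) : Stm Λ :=
  .pop k (fun _ o => o) (.branch (fun o => o.isNone) (jump q0)
    (.branch (fun o => o == some true) (.load (fun _ => none) (jump qt))
      (.load (fun _ => none) (jump qf))))

def code {Λ : Type} : ∀ c, (Lab c → Λ) → Option Λ → Lab c → Stm Λ
  | .push k x, _, nx, _ => .push k (fun _ => x) (jump nx)
  | .skip, _, nx, _ => jump nx
  | .seq p q, inj, _, Sum.inl l => code p (fun l => inj (Sum.inl l)) (some (inj (Sum.inr (entry q)))) l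
  | .seq _ q, inj, nx, Sum.inr l => code q (fun l => inj (Sum.inr l)) nx l
  | .cases k p0 pf pt, inj, _, Sum.inl _ => br k (some (inj (Sum.inr (Sum.inl (entry p0)))))
      (some (inj (Sum.inr (Sum.inr (Sum.inl (entry pf))))))
      (some (inj (Sum.inr (Sum.inr (Sum.inr (entry pt))))))
  | .cases _ p0 _ _, inj, nx, Sum.inr (Sum.inl l) => code p0 (fun l => inj (Sum.inr (Sum.inl l))) nx l
  | .cases _ _ pf _, inj, nx, Sum.inr (Sum.inr (Sum.inl l)) =>
      code pf (fun l => inj (Sum.inr (Sum.inr (Sum.inl l)))) nx l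
  | .cases _ _ _ pt, inj, nx, Sum.inr (Sum.inr (Sum.inr l)) =>
      code pt (fun l => inj (Sum.inr (Sum.inr (Sum.inr l)))) nx l
  | .loop k pf pt, inj, nx, Sum.inl _ => br k nx (some (inj (Sum.inr (Sum.inl (entry pf)))))
      (some (inj (Sum.inr (Sum.inr (entry pt)))))
  | .loop _ pf _, inj, _, Sum.inr (Sum.inl l) =>
      code pf (fun l => inj (Sum.inr (Sum.inl l))) (some (inj (Sum.inl ()))) l
  | .loop _ _ pt, inj, _, Sum.inr (Sum.inr l) =>
      code pt (fun l => inj (Sum.inr (Sum.inr l))) (some (inj (Sum.inl ()))) l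

lemma stepAux_jump {Λ : Type} (nx : Option Λ) (v : Option Bool) (S : St) :
    TM2.stepAux (jump nx) v S = ⟨nx, v, S⟩ := by cases nx <;> rfl

lemma br_nil {Λ : Type} {k : R} (q0 qf qt : Option Λ) {S : St} (h : S k = []) :
    TM2.stepAux (br k q0 qf qt) none S = ⟨q0, none, S⟩ := by
  have : update S k [] = S := by rw [← h]; simp
  simp [br, h, stepAux_jump, this]

lemma br_false {Λ : Type} {k : R} (q0 qf qt : Option Λ) {S : St} {l} (h : S k = false :: l) :
    TM2.stepAux (br k q0 qf qt) none S = ⟨qf, none, update S k l⟩ := by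
  simp [br, h, stepAux_jump]

lemma br_true {Λ : Type} {k : R} (q0 qf qt : Option Λ) {S : St} {l} (h : S k = true :: l) :
    TM2.stepAux (br k q0 qf qt) none S = ⟨qt, none, update S k l⟩ := by
  simp [br, h, stepAux_jump]

lemma sim {c : Cmd} {S S' : St} {n : ℕ} (h : Exec c S S' n) {Λ : Type} (M : Λ → Stm Λ) :
    ∀ (inj : Lab c → Λ) (nx : Option Λ), (∀ l, M (inj l) = code c inj nx l) →
      (flip bind (TM2.step M))^[n] (some ⟨some (inj (entry c)), none, S⟩) = some ⟨nx, none, S'⟩ := by
  have one : ∀ (l : Λ) (S : St), flip bind (TM2.step M) (some ⟨some l, none, S⟩) =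
      some (TM2.stepAux (M l) none S) := fun _ _ => rfl
  induction h with
  | push k x S =>
    intro inj nx hM
    rw [iterate_one, one, hM]
    exact congrArg some (stepAux_jump _ _ _)
  | skip S =>
    intro inj nx hM
    rw [iterate_one, one, hM]
    exact congrArg some (stepAux_jump _ _ _)
  | seq _ _ ih1 ih2 =>
    intro inj nx hM
    rw [add_comm, iterate_add_apply]
    erw [ih1 _ _ fun l => hM (Sum.inl l)]
    exact ih2 _ _ fun l => hM (Sum.inr l)
  | casesE h0 _ ih =>
    intro inj nx hM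
    rw [iterate_succ_apply, one, hM]
    erw [br_nil _ _ _ h0]
    exact ih _ _ fun l => hM (Sum.inr (Sum.inl l))
  | casesF h0 _ ih =>
    intro inj nx hM
    rw [iterate_succ_apply, one, hM]
    erw [br_false _ _ _ h0]
    exact ih _ _ fun l => hM (Sum.inr (Sum.inr (Sum.inl l)))
  | casesT h0 _ ih =>
    intro inj nx hM
    rw [iterate_succ_apply, one, hM]
    erw [br_true _ _ _ h0]
    exact ih _ _ fun l => hM (Sum.inr (Sum.inr (Sum.inr l)))
  | loopE h0 =>
    intro inj nx hM
    rw [iterate_one, one, hM]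
    erw [br_nil _ _ _ h0]
  | loopF h0 _ _ ih1 ih2 =>
    intro inj nx hM
    rw [iterate_succ_apply, one, hM]
    erw [br_false _ _ _ h0]
    rw [add_comm, iterate_add_apply]
    erw [ih1 _ _ fun l => hM (Sum.inr (Sum.inl l))]
    exact ih2 _ _ hM
  | loopT h0 _ _ ih1 ih2 =>
    intro inj nx hM
    rw [iterate_succ_apply, one, hM]
    erw [br_true _ _ _ h0]
    rw [add_comm, iterate_add_apply]
    erw [ih1 _ _ fun l => hM (Sum.inr (Sum.inr l))]
    exact ih2 _ _ hM

/-- the machine of a command -/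
noncomputable def machine (c : Cmd) : FinTM2 :=
  @FinTM2.mk R _ _ .a .a (fun _ => Bool) (Lab c) (entry c) (@Fintype.ofFinite _ (finite_Lab c))
    (Option Bool) none _ _ (code c id none)

lemma machine_outputs {c : Cmd} {x y : List Bool} {n t : ℕ}
    (h : Exec c (mk x [] [] []) (mk y [] [] []) n) (hn : n ≤ t) :
    Nonempty (TM2OutputsInTime (machine c) x (some y) t) := by
  refine ⟨⟨⟨n, ?_⟩, hn⟩⟩
  have h1 := sim h (code c id none) id none fun _ => rfl
  have e1 : initList (machine c) x = ⟨some (entry c), none, mk x [] [] []⟩ := by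
    unfold initList
    congr 1
    funext k; cases k <;> rfl
  have e2 : haltList (machine c) y = ⟨none, none, mk y [] [] []⟩ := by
    unfold haltList
    congr 1
    funext k; cases k <;> rfl
  exact (congrArg (fun z => (flip bind (machine c).step)^[n] (some z)) e1).trans
    (h1.trans (congrArg some e2.symm))

/-- total length of the stacks -/
def tot (S : St) : ℕ := (S .a).length + (S .b).length + (S .c).length + (S .d).length

lemma tot_update (S : St) (k : R) (l : List Bool) :
    tot (update S k l) + (S k).length = tot S + l.length := by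
  cases k <;> simp [tot] <;> omega

lemma Exec.tot_le {c : Cmd} {S S' : St} {n : ℕ} (h : Exec c S S' n) : tot S' ≤ tot S + n := by
  induction h with
  | push k x S => have := tot_update S k (x :: S k); simp at this; omega
  | skip S => omega
  | seq _ _ ih1 ih2 => omega
  | casesE _ _ ih => omega
  | @casesF k _ _ _ S _ _ l h0 _ ih => have := tot_update S k l; simp [h0] at this; omega
  | @casesT k _ _ _ S _ _ l h0 _ ih => have := tot_update S k l; simp [h0] at this; omega
  | loopE _ => omega
  | @loopF k _ _ S _ _ _ _ l h0 _ _ ih1 ih2 =>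
    have := tot_update S k l; simp [h0] at this; omega
  | @loopT k _ _ S _ _ _ _ l h0 _ _ ih1 ih2 =>
    have := tot_update S k l; simp [h0] at this; omega

/-- execution within a time bound -/
def Run (c : Cmd) (S S' : St) (t : ℕ) : Prop := ∃ n ≤ t, Exec c S S' n

lemma Run.mono {c S S' t t'} (h : Run c S S' t) (ht : t ≤ t') : Run c S S' t' :=
  let ⟨n, h1, h2⟩ := h; ⟨n, h1.trans ht, h2⟩

lemma Run.push (k x S) : Run (.push k x) S (update S k (x :: S k)) 1 := ⟨1, le_rfl, .push _ _ _⟩
lemma Run.skip (S) : Run .skip S S 1 := ⟨1, le_rfl, .skip _⟩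
lemma Run.seq {p q S S' S'' n m} (h : Run p S S' n) (h' : Run q S' S'' m) :
    Run (.seq p q) S S'' (n + m) :=
  let ⟨_, h1, h2⟩ := h; let ⟨_, h3, h4⟩ := h'; ⟨_, add_le_add h1 h3, .seq h2 h4⟩
lemma Run.casesE {k p0 pf pt S S' n} (h0 : S k = []) (h : Run p0 S S' n) :
    Run (.cases k p0 pf pt) S S' (n + 1) :=
  let ⟨_, h1, h2⟩ := h; ⟨_, by omega, .casesE h0 h2⟩
lemma Run.casesF {k p0 pf pt S S' n l} (h0 : S k = false :: l) (h : Run pf (update S k l) S' n) :
    Run (.cases k p0 pf pt) S S' (n + 1) :=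
  let ⟨_, h1, h2⟩ := h; ⟨_, by omega, .casesF h0 h2⟩
lemma Run.casesT {k p0 pf pt S S' n l} (h0 : S k = true :: l) (h : Run pt (update S k l) S' n) :
    Run (.cases k p0 pf pt) S S' (n + 1) :=
  let ⟨_, h1, h2⟩ := h; ⟨_, by omega, .casesT h0 h2⟩
lemma Run.loopE {k pf pt S} (h0 : S k = []) : Run (.loop k pf pt) S S 1 := ⟨1, le_rfl, .loopE h0⟩
lemma Run.loopF {k pf pt S S' S'' n m l} (h0 : S k = false :: l) (h : Run pf (update S k l) S' n)
    (h' : Run (.loop k pf pt) S' S'' m) : Run (.loop k pf pt) S S'' (n + m + 1) :=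
  let ⟨_, h1, h2⟩ := h; let ⟨_, h3, h4⟩ := h'; ⟨_, by omega, .loopF h0 h2 h4⟩
lemma Run.loopT {k pf pt S S' S'' n m l} (h0 : S k = true :: l) (h : Run pt (update S k l) S' n)
    (h' : Run (.loop k pf pt) S' S'' m) : Run (.loop k pf pt) S S'' (n + m + 1) :=
  let ⟨_, h1, h2⟩ := h; let ⟨_, h3, h4⟩ := h'; ⟨_, by omega, .loopT h0 h2 h4⟩

end Vale.Agent.PT
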