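import Vale.Agent.Lib.PTime.List

/-! Binary arithmetic on natural numbers. -/

namespace Vale.Agent.PT

attribute [local irreducible] PTime PB

open Function TEnc

variable {α β γ δ σ : Type} [TEnc α] [TEnc β] [TEnc γ] [TEnc δ] [TEnc σ]

/-- value of a little-endian bit string -/
def val (l : List Bool) : ℕ := l.foldr Nat.bit 0

@[simp] lemma val_nil : val [] = 0 := rfl
@[simp] lemma val_cons (b l) : val (b :: l) = b.toNat + 2 * val l := by
  cases b <;> simp [val, Nat.bit]; omega

@[simp] lemma val_bits (n : ℕ) : val n.bits = n := by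
  induction n using Nat.binaryRec' with
  | zero => simp
  | bit b n h ih => rw [Nat.bits_append_bit n b h]; simpa [val] using congrArg (Nat.bit b) ih

instance : TEncInj ℕ := ⟨fun a b h => by
  have : a.bits = b.bits := TEncInj.inj (α := List Bool) h
  rw [← val_bits a, this, val_bits]⟩

lemma val_lt (l : List Bool) : val l < 2 ^ l.length := by
  induction l with
  | nil => simp
  | cons b l ih => cases b <;> simp [pow_succ] <;> omega

lemma val_append (l m : List Bool) : val (l ++ m) = val l + 2 ^ l.length * val m := by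
  induction l with
  | nil => simp
  | cons b l ih => simp [ih, pow_succ]; ring

lemma sz_nat_le (n : ℕ) : sz n ≤ 4 * n.size + 1 := by
  have := sz_list_le n.bits (B := 3) fun b _ => sz_bool_le b
  rw [Nat.size_eq_bits_len] at this
  exact this.trans (by omega)

lemma size_lt_sz (n : ℕ) : n.size < sz n := by
  rw [← Nat.size_eq_bits_len]; exact length_lt_sz n.bits

lemma sz_nat_le_of_lt {n k : ℕ} (h : n < 2 ^ k) : sz n ≤ 4 * k + 1 := by
  have := sz_nat_le n
  have := Nat.size_le.2 h
  omega

lemma lt_two_pow_sz (n : ℕ) : n < 2 ^ sz n :=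
  (Nat.lt_size_self n).trans_le (Nat.pow_le_pow_right (by norm_num) (size_lt_sz n).le)

lemma sz_nat_le_of_le {m n : ℕ} (h : m ≤ n) : sz m ≤ 4 * sz n + 1 :=
  sz_nat_le_of_lt (h.trans_lt (lt_two_pow_sz n))

lemma sz_nat_le_self (n : ℕ) : sz n ≤ 4 * n + 1 := sz_nat_le_of_lt Nat.lt_two_pow_self

@[fun_prop] lemma PTime.bits {f : α → ℕ} (hf : PTime f) : PTime fun a => (f a).bits :=
  hf.of_enc fun _ => rfl

@[fun_prop] lemma PB.size {f : α → ℕ} (hf : PTime f) : PB fun a => (f a).size :=
  hf.sz_PB.of_le fun _ => (size_lt_sz _).le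

/-- a polynomially bounded number has a short encoding -/
lemma PB.sz_nat {f : α → ℕ} (hf : PB f) : PB fun a => sz (f a) :=
  PB.of_le (g := fun a => 4 * f a + 1) (by fun_prop) fun _ => sz_nat_le_self _

@[fun_prop] lemma PTime.bit {b : α → Bool} {f : α → ℕ} (hb : PTime b) (hf : PTime f) :
    PTime fun a => Nat.bit (b a) (f a) := by
  refine PTime.of_enc (f := fun a => bif (f a).bits.isEmpty && !b a then [] else b a :: (f a).bits)
    (by fun_prop) fun a => ?_
  show TEnc.enc (Nat.bit (b a) (f a)).bits = _
  congr 1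
  by_cases h : f a = 0 → b a = true
  · rw [Nat.bits_append_bit _ _ h]
    by_cases h0 : f a = 0
    · simp [h h0]
    · have : (f a).bits ≠ [] := fun h1 => h0 (by rw [← val_bits (f a), h1]; rfl)
      cases hb : (f a).bits <;> simp_all
  · push Not at h
    simp [h.1, h.2]

@[fun_prop] lemma PTime.val {l : α → List Bool} (hl : PTime l) : PTime fun a => val (l a) :=
  hl.foldr (.const 0) (f := fun _ => Nat.bit) (by fun_prop) (fun a => 4 * (l a).length + 1)
    (by fun_prop) fun a k => sz_nat_le_of_lt ((val_lt _).trans_le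
      (Nat.pow_le_pow_right (by norm_num) (by simp)))

@[fun_prop] lemma PTime.toNat {b : α → Bool} (hb : PTime b) : PTime fun a => (b a).toNat :=
  (hb.cond (.const 1) (.const 0)).of_eq fun a => by cases b a <;> rfl

/-- pad two lists to a common length and zip them -/
def pad (x y : List Bool) : List (Bool × Bool) :=
  (x ++ y.map fun _ => false).zip (y ++ x.map fun _ => false)

lemma val_false (y : List Bool) : val (y.map fun _ => false) = 0 := by
  induction y <;> simp_all

lemma val_pad_fst (x y) : val ((pad x y).map Prod.fst) = val x := by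
  rw [pad, List.map_fst_zip (by simp [add_comm]), val_append, val_false]; simp

lemma val_pad_snd (x y) : val ((pad x y).map Prod.snd) = val y := by
  rw [pad, List.map_snd_zip (by simp [add_comm]), val_append, val_false]; simp

@[fun_prop] lemma PTime.pad {l m : α → List Bool} (hl : PTime l) (hm : PTime m) :
    PTime fun a => pad (l a) (m a) := by unfold PT.pad; fun_prop

def addStep (s : Bool × List Bool) (p : Bool × Bool) : Bool × List Bool :=
  ((p.1 && p.2) || (s.1 && xor p.1 p.2), xor (xor p.1 p.2) s.1 :: s.2)

lemma addStep_spec (ps : List (Bool × Bool)) : ∀ s : Bool × List Bool,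
    val ((ps.foldl addStep s).1 :: (ps.foldl addStep s).2).reverse =
      val s.2.reverse + 2 ^ s.2.length *
        (s.1.toNat + val (ps.map Prod.fst) + val (ps.map Prod.snd)) := by
  induction ps with
  | nil => intro s; simp [val_append]
  | cons p ps ih =>
    rintro ⟨c, out⟩
    obtain ⟨x, y⟩ := p
    rw [List.foldl_cons, ih]
    cases c <;> cases x <;> cases y <;> simp [addStep, val_append, pow_succ] <;> ring

@[fun_prop] lemma PTime.add {f g : α → ℕ} (hf : PTime f) (hg : PTime g) :
    PTime fun a => f a + g a := by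
  have h := (hf.bits.pad hg.bits).foldl_add (.const (false, ([] : List Bool)))
    (f := fun _ => addStep) (by unfold addStep; fun_prop) (fun _ => 10) (by fun_prop) (by
      rintro a ⟨c, out⟩ p _
      have h1 := sz_bool_le ((p.1 && p.2) || (c && Bool.xor p.1 p.2))
      have h2 := sz_bool_le (Bool.xor (Bool.xor p.1 p.2) c)
      simp only [addStep, sz_prod, sz_cons]; omega)
  refine (h.fst.cons h.snd).reverse.val.of_eq fun a => ?_
  rw [addStep_spec, val_pad_fst, val_pad_snd]; simp

def subStep (s : Bool × List Bool) (p : Bool × Bool) : Bool × List Bool :=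
  ((!p.1 && p.2) || (s.1 && !(xor p.1 p.2)), xor (xor p.1 p.2) s.1 :: s.2)

lemma subStep_spec (ps : List (Bool × Bool)) : ∀ s : Bool × List Bool,
    val (ps.foldl subStep s).2.reverse + 2 ^ s.2.length * (s.1.toNat + val (ps.map Prod.snd)) =
      val s.2.reverse + 2 ^ s.2.length * val (ps.map Prod.fst) +
        2 ^ (ps.foldl subStep s).2.length * (ps.foldl subStep s).1.toNat := by
  induction ps with
  | nil => intro s; simp
  | cons p ps ih =>
    rintro ⟨c, out⟩
    obtain ⟨x, y⟩ := p
    have := ih (subStep (c, out) (x, y))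
    rw [List.foldl_cons]
    cases c <;> cases x <;> cases y <;>
      simp [subStep, val_append, pow_succ] at this ⊢ <;> linarith

lemma PTime.subFold {f g : α → ℕ} (hf : PTime f) (hg : PTime g) :
    PTime fun a => (PT.pad (f a).bits (g a).bits).foldl subStep (false, []) :=
  (hf.bits.pad hg.bits).foldl_add (.const (false, ([] : List Bool)))
    (f := fun _ => subStep) (by unfold subStep; fun_prop) (fun _ => 10) (by fun_prop) (by
      rintro a ⟨c, out⟩ p _
      have h1 := sz_bool_le ((!p.1 && p.2) || (c && !(Bool.xor p.1 p.2)))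
      have h2 := sz_bool_le (Bool.xor (Bool.xor p.1 p.2) c)
      simp only [subStep, sz_prod, sz_cons]; omega)

lemma subFold_spec (x y : ℕ) : ((pad x.bits y.bits).foldl subStep (false, [])).1 = decide (x < y) ∧
    (¬ x < y → val ((pad x.bits y.bits).foldl subStep (false, [])).2.reverse = x - y) := by
  have h := subStep_spec (pad x.bits y.bits) (false, [])
  rw [val_pad_fst, val_pad_snd] at h
  have h2 := val_lt ((pad x.bits y.bits).foldl subStep (false, [])).2.reverse
  cases hc : ((pad x.bits y.bits).foldl subStep (false, [])).1 <;> simp [hc] at h h2 ⊢ <;> omega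

@[fun_prop] lemma PTime.decide_lt {f g : α → ℕ} (hf : PTime f) (hg : PTime g)
    {inst : ∀ a, Decidable (f a < g a)} : PTime fun a => decide (f a < g a) :=
  (hf.subFold hg).fst.of_eq fun a => by rw [(subFold_spec _ _).1]; congr

@[fun_prop] lemma PTime.decide_le {f g : α → ℕ} (hf : PTime f) (hg : PTime g)
    {inst : ∀ a, Decidable (f a ≤ g a)} : PTime fun a => decide (f a ≤ g a) :=
  (hg.decide_lt hf (inst := inferInstance)).not.of_eq fun a => by
    rw [Bool.eq_iff_iff]; simp

@[fun_prop] lemma PTime.decide_gt {f g : α → ℕ} (hf : PTime f) (hg : PTime g)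
    {inst : ∀ a, Decidable (f a > g a)} : PTime fun a => decide (f a > g a) := hg.decide_lt hf

@[fun_prop] lemma PTime.decide_ge {f g : α → ℕ} (hf : PTime f) (hg : PTime g)
    {inst : ∀ a, Decidable (f a ≥ g a)} : PTime fun a => decide (f a ≥ g a) := hg.decide_le hf

@[fun_prop] lemma PTime.sub {f g : α → ℕ} (hf : PTime f) (hg : PTime g) :
    PTime fun a => f a - g a := by
  have h := (hf.subFold hg).snd.reverse.val
  refine PTime.of_eq (PTime.ite (p := fun a => f a < g a) (inst := inferInstance)
    (hf.decide_lt hg) (.const 0) h) fun a => ?_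
  split_ifs with h1
  · omega
  · exact (subFold_spec _ _).2 h1

@[fun_prop] lemma PTime.succ {f : α → ℕ} (hf : PTime f) : PTime fun a => (f a).succ :=
  hf.add (.const 1)

@[fun_prop] lemma PTime.pred {f : α → ℕ} (hf : PTime f) : PTime fun a => (f a).pred :=
  hf.sub (.const 1)

@[fun_prop] lemma PTime.max {f g : α → ℕ} (hf : PTime f) (hg : PTime g) :
    PTime fun a => max (f a) (g a) := by simp only [max_def]; fun_prop

@[fun_prop] lemma PTime.min {f g : α → ℕ} (hf : PTime f) (hg : PTime g) :
    PTime fun a => min (f a) (g a) := by simp only [min_def]; fun_prop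

@[fun_prop] lemma PTime.mul {f g : α → ℕ} (hf : PTime f) (hg : PTime g) :
    PTime fun a => f a * g a := by
  have key : ∀ (x : ℕ) (l : List Bool),
      l.foldr (fun b s => s + s + bif b then x else 0) 0 = x * PT.val l := by
    intro x l
    induction l with
    | nil => simp
    | cons b l ih => cases b <;> simp [ih] <;> ring
  refine (hg.bits.foldr (.const 0) (f := fun a b s => s + s + bif b then f a else 0) (by fun_prop)
    (fun a => 4 * (sz (f a) + (g a).bits.length) + 1) (by fun_prop) fun a k => ?_).of_eq
    fun a => by simp [key]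
  rw [key]
  refine sz_nat_le_of_lt ?_
  rw [pow_add]
  refine Nat.mul_lt_mul'' (lt_two_pow_sz _) ((val_lt _).trans_le ?_)
  exact Nat.pow_le_pow_right (by norm_num) (by simp)

def divStep (y : ℕ) (b : Bool) (s : ℕ × ℕ) : ℕ × ℕ :=
  if Nat.bit b s.2 < y then (Nat.bit false s.1, Nat.bit b s.2)
  else (Nat.bit true s.1, Nat.bit b s.2 - y)

lemma divStep_spec {y : ℕ} (hy : 0 < y) (l : List Bool) :
    l.foldr (divStep y) (0, 0) = (val l / y, val l % y) := by
  induction l with
  | nil => simp
  | cons b l ih =>
    rw [List.foldr_cons, ih]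
    have h1 := Nat.mod_lt (val l) hy
    have h2 := Nat.div_add_mod (val l) y
    have e : Nat.bit b (val l % y) = b.toNat + 2 * (val l % y) := by
      cases b <;> simp [Nat.bit]; omega
    have hb : b.toNat ≤ 1 := by cases b <;> simp
    unfold divStep
    simp only [e, val_cons]
    split_ifs with h
    · have := (Nat.div_mod_unique (a := b.toNat + 2 * val l) (c := b.toNat + 2 * (val l % y))
        (d := 2 * (val l / y)) hy).2 ⟨by nlinarith, h⟩
      simp [Nat.bit, this.1, this.2]
    · have := (Nat.div_mod_unique (a := b.toNat + 2 * val l) (c := b.toNat + 2 * (val l % y) - y)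
        (d := 2 * (val l / y) + 1) hy).2 ⟨by
          have : y * (2 * (val l / y) + 1) = 2 * (y * (val l / y)) + y := by ring
          omega, by omega⟩
      simp [Nat.bit, this.1, this.2]

lemma PTime.divMod {f g : α → ℕ} (hf : PTime f) (hg : PTime g) :
    PTime fun a => (f a / g a, f a % g a) := by
  have h : PTime fun a => (f a).bits.foldr (divStep (g a - 1 + 1)) (0, 0) := by
    refine hf.bits.foldr (.const _) (f := fun a => divStep (g a - 1 + 1))
      (by unfold divStep; fun_prop) (fun a => 8 * (f a).bits.length + 3) (by fun_prop) fun a k => ?_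
    rw [divStep_spec (by omega), sz_prod]
    have h1 : PT.val ((f a).bits.drop k) < 2 ^ (f a).bits.length :=
      (val_lt _).trans_le (Nat.pow_le_pow_right (by norm_num) (by simp))
    have h2 := sz_nat_le_of_lt ((Nat.div_le_self _ (g a - 1 + 1)).trans_lt h1)
    have h3 := sz_nat_le_of_lt ((Nat.mod_le _ (g a - 1 + 1)).trans_lt h1)
    omega
  refine PTime.of_eq (PTime.ite (p := fun a => g a = 0) (inst := inferInstance)
    (by fun_prop) (f := fun a => (0, f a)) (by fun_prop) h) fun a => ?_
  split_ifs with h1
  · simp [h1]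
  · rw [divStep_spec (by omega), val_bits, show g a - 1 + 1 = g a by omega]

@[fun_prop] lemma PTime.div {f g : α → ℕ} (hf : PTime f) (hg : PTime g) :
    PTime fun a => f a / g a := (hf.divMod hg).fst

@[fun_prop] lemma PTime.mod {f g : α → ℕ} (hf : PTime f) (hg : PTime g) :
    PTime fun a => f a % g a := (hf.divMod hg).snd

@[fun_prop] lemma PTime.decide_dvd {f g : α → ℕ} (hf : PTime f) (hg : PTime g)
    {inst : ∀ a, Decidable (f a ∣ g a)} : PTime fun a => decide (f a ∣ g a) :=
  PTime.of_eq (f := fun a => decide (g a % f a = 0)) (by fun_prop) fun a => by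
    simp [Nat.dvd_iff_mod_eq_zero]

@[fun_prop] lemma PTime.length {l : α → List β} (hl : PTime l) : PTime fun a => (l a).length := by
  have key : ∀ k, (fun n : ℕ => n + 1)^[k] 0 = k := fun k => by simp [Nat.succ_iterate 0 k]
  refine (hl.iterate_len (.const 0) (f := fun _ n => n + 1) (by fun_prop)
    (fun a => 4 * (l a).length + 1) (by fun_prop) fun a k hk => ?_).of_eq fun a => key _
  rw [key]
  exact (sz_nat_le_self k).trans (by omega)

@[fun_prop] lemma PTime.size {f : α → ℕ} (hf : PTime f) : PTime fun a => (f a).size :=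
  hf.bits.length.of_eq fun _ => Nat.size_eq_bits_len _

@[fun_prop] lemma PTime.sz {f : α → β} (hf : PTime f) : PTime fun a => sz (f a) := hf.encode.length

/-- conversion to unary of a polynomially bounded number -/
@[fun_prop] lemma PTime.range {n : α → ℕ} (hn : PTime n) (hB : PB n) :
    PTime fun a => List.range (n a) := by
  let g : ℕ × List ℕ → ℕ × List ℕ := fun s => (s.1 - 1, (s.1 - 1) :: s.2)
  have key : ∀ m k, k ≤ m → g^[k] (m, []) = (m - k, List.range' (m - k) k) := by
    intro m k
    induction k with
    | zero => simp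
    | succ k ih =>
      intro hk
      rw [iterate_succ_apply', ih (by omega), List.range'_succ]
      simp only [g]
      rw [show m - k - 1 = m - (k + 1) by omega, show m - (k + 1) + 1 = m - k by omega]
  have main := PTime.loop (g := g) (c := fun s => decide (0 < s.1)) (by fun_prop) (by fun_prop)
    (i := fun a => (n a, ([] : List ℕ))) (by fun_prop) n hB
    (fun a => 4 * n a + 1 + (n a * (4 * n a + 1 + 1) + 1) + 1) (by fun_prop)
    (fun a k hk => by simp [key _ _ hk.le, hk]) (fun a => by simp [key])
    (fun a k hk => by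
      rw [key _ _ hk, sz_prod]
      have h1 := sz_nat_le_self (n a - k)
      have h2 := sz_list_le (List.range' (n a - k) k) (B := 4 * n a + 1) fun x hx => by
        have := sz_nat_le_self x
        rw [List.mem_range'_1] at hx
        omega
      rw [List.length_range'] at h2
      have := Nat.mul_le_mul_right (4 * n a + 1 + 1) hk
      omega)
  exact main.snd.of_eq fun a => by simp [key, List.range_eq_range']

@[fun_prop] lemma PTime.replicate {n : α → ℕ} {g : α → β} (hn : PTime n) (hB : PB n)
    (hg : PTime g) : PTime fun a => List.replicate (n a) (g a) :=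
  ((hn.range hB).replicate_len hg).of_eq fun a => by simp

/-- Iteration a polynomially bounded number of times, all intermediate states being small. -/
theorem PTime.iterate {n : α → ℕ} {i : α → σ} {f : α → σ → σ} (hn : PTime n) (hnB : PB n)
    (hi : PTime i) (hf : PTime fun p : α × σ => f p.1 p.2) (B : α → ℕ) (hB : PB B)
    (h : ∀ a, ∀ k ≤ n a, PT.sz ((f a)^[k] (i a)) ≤ B a) : PTime fun a => (f a)^[n a] (i a) :=
  ((hn.range hnB).iterate_len hi hf B hB fun a k hk => h a k (by simpa using hk)).of_eq
    fun a => by simp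

@[fun_prop] lemma PTime.drop {l : α → List β} {n : α → ℕ} (hn : PTime n) (hl : PTime l) :
    PTime fun a => (l a).drop (n a) :=
  (hl.drop_len ((hn.min hl.length).range
    ((PB.length hl).of_le fun _ => min_le_right _ _))).of_eq fun a => by
    rw [List.length_range]
    rcases le_total (n a) (l a).length with h | h
    · rw [min_eq_left h]
    · rw [min_eq_right h, List.drop_eq_nil_of_le h, List.drop_eq_nil_of_le le_rfl]

@[fun_prop] lemma PTime.take {l : α → List β} {n : α → ℕ} (hn : PTime n) (hl : PTime l) :
    PTime fun a => (l a).take (n a) :=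
  (hl.take_len ((hn.min hl.length).range
    ((PB.length hl).of_le fun _ => min_le_right _ _))).of_eq fun a => by
    rw [List.length_range, ← List.take_eq_take_min]

@[fun_prop] lemma PTime.getElem? {l : α → List β} {n : α → ℕ} (hl : PTime l) (hn : PTime n) :
    PTime fun a => (l a)[n a]? := (hn.drop hl).head?.of_eq fun a => by simp

@[fun_prop] lemma PTime.list_getD {l : α → List β} {n : α → ℕ} {d : α → β} (hl : PTime l)
    (hn : PTime n) (hd : PTime d) : PTime fun a => (l a).getD (n a) (d a) :=
  ((hl.getElem? hn).getD hd).of_eq fun a => by simp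

@[fun_prop] lemma PTime.set {l : α → List β} {n : α → ℕ} {d : α → β} (hl : PTime l)
    (hn : PTime n) (hd : PTime d) : PTime fun a => (l a).set (n a) (d a) :=
  PTime.of_eq (f := fun a => if n a < (l a).length then
    (l a).take (n a) ++ d a :: (l a).drop (n a + 1) else l a) (by fun_prop) fun a => by
    split_ifs with h
    · rw [List.set_eq_take_append_cons_drop, if_pos h]
    · rw [List.set_eq_of_length_le (not_lt.1 h)]

@[fun_prop] lemma PTime.zipIdx {l : α → List β} (hl : PTime l) : PTime fun a => (l a).zipIdx :=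
  PTime.of_eq (f := fun a => (l a).zip (List.range (l a).length)) (by fun_prop) fun a => by
    rw [List.zipIdx_eq_zip_range', List.range_eq_range']

@[fun_prop] lemma PTime.countP {l : α → List β} {f : α → β → Bool} (hl : PTime l)
    (hf : PTime fun p : α × β => f p.1 p.2) : PTime fun a => (l a).countP (f a) :=
  (hl.filter hf).length.of_eq fun a => by rw [List.countP_eq_length_filter]

lemma sum_lt_two_pow (l : List ℕ) : l.sum < 2 ^ PT.sz l := by
  induction l with
  | nil => simp
  | cons x l ih =>
    have h1 := lt_two_pow_sz x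
    have h2 : 2 ^ PT.sz x ≤ 2 ^ (PT.sz x + PT.sz l) := Nat.pow_le_pow_right (by norm_num) (by omega)
    have h3 : 2 ^ PT.sz l ≤ 2 ^ (PT.sz x + PT.sz l) := Nat.pow_le_pow_right (by norm_num) (by omega)
    simp [pow_succ]; omega

lemma prod_lt_two_pow (l : List ℕ) : l.prod < 2 ^ PT.sz l := by
  induction l with
  | nil => simp
  | cons x l ih =>
    have h1 := Nat.mul_lt_mul'' (lt_two_pow_sz x) ih
    rw [← pow_add] at h1
    simp [pow_succ]; omega

@[fun_prop] lemma PTime.nat_sum {l : α → List ℕ} (hl : PTime l) : PTime fun a => (l a).sum :=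
  hl.foldr (.const 0) (f := fun _ => (· + ·)) (by fun_prop) (fun a => 4 * PT.sz (l a) + 1)
    (by fun_prop) fun a k => (sz_nat_le_of_lt (sum_lt_two_pow _)).trans (by
      have := sz_sublist (List.drop_sublist k (l a)); omega)

@[fun_prop] lemma PTime.nat_prod {l : α → List ℕ} (hl : PTime l) : PTime fun a => (l a).prod :=
  hl.foldr (.const 1) (f := fun _ => (· * ·)) (by fun_prop) (fun a => 4 * PT.sz (l a) + 1)
    (by fun_prop) fun a k => (sz_nat_le_of_lt (prod_lt_two_pow _)).trans (by
      have := sz_sublist (List.drop_sublist k (l a)); omega)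

@[fun_prop] lemma PTime.pow {f n : α → ℕ} (hf : PTime f) (hn : PTime n) (hB : PB n) :
    PTime fun a => f a ^ n a :=
  (hn.replicate hB hf).nat_prod.of_eq fun a => by simp

@[fun_prop] lemma PTime.factorial {n : α → ℕ} (hn : PTime n) (hB : PB n) :
    PTime fun a => (n a).factorial :=
  ((hn.range hB).map (f := fun _ k => k + 1) (by fun_prop)).nat_prod.of_eq fun a => by
    rw [← Finset.prod_range_add_one_eq_factorial, Finset.prod_eq_multiset_prod]; rfl

@[fun_prop] lemma PTime.log2 {f : α → ℕ} (hf : PTime f) : PTime fun a => Nat.log 2 (f a) :=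
  (hf.size.sub (.const 1)).of_eq fun a => by
    rcases Nat.eq_zero_or_pos (f a) with h | h
    · simp [h]
    · have h1 : 0 < (f a).size := Nat.size_pos.2 h
      symm
      rw [Nat.log_eq_iff (Or.inr ⟨by norm_num, h.ne'⟩), show (f a).size - 1 + 1 = (f a).size by omega]
      exact ⟨Nat.lt_size.1 (by omega), Nat.lt_size_self _⟩

@[fun_prop] lemma PB.log2 {f : α → ℕ} (hf : PTime f) : PB fun a => Nat.log 2 (f a) :=
  hf.sz_PB.of_le fun a => by
    rcases Nat.eq_zero_or_pos (f a) with h | h
    · simp [h]
    · exact (Nat.log_lt_of_lt_pow h.ne' (lt_two_pow_sz _)).le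

@[fun_prop] lemma PTime.gcd {f g : α → ℕ} (hf : PTime f) (hg : PTime g) :
    PTime fun a => Nat.gcd (f a) (g a) := by
  let s : ℕ × ℕ → ℕ × ℕ := fun p => if p.1 = 0 then p else (p.2 % p.1, p.1)
  have h1 : ∀ k p, Nat.gcd (s^[k] p).1 (s^[k] p).2 = Nat.gcd p.1 p.2 ∧
      (s^[k] p).1 ≤ p.1 + p.2 ∧ (s^[k] p).2 ≤ p.1 + p.2 := by
    intro k
    induction k with
    | zero => simp
    | succ k ih =>
      intro p
      rw [iterate_succ_apply]
      obtain ⟨a1, a2, a3⟩ := ih (s p)
      by_cases h : p.1 = 0
      · simp only [s, if_pos h] at a1 a2 a3 ⊢; exact ⟨a1, a2, a3⟩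
      · simp only [s, if_neg h] at a1 a2 a3 ⊢
        have := Nat.mod_le p.2 p.1
        exact ⟨a1.trans (Nat.gcd_rec _ _).symm, by omega, by omega⟩
  have h2 : ∀ k (p : ℕ × ℕ), p.1 < 2 ^ k → (s^[2 * k] p).1 = 0 := by
    intro k
    induction k with
    | zero => intro p hp; simpa using hp
    | succ k ih =>
      intro p hp
      rw [Nat.mul_succ, iterate_add_apply]
      refine ih _ ?_
      have hpos : 0 < 2 ^ k := by positivity
      show (s (s p)).1 < 2 ^ k
      by_cases h : p.1 = 0
      · simp [s, h]
      by_cases h' : p.2 % p.1 = 0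
      · simp [s, h, h']
      simp only [s, if_neg h, if_neg h']
      have a1 := Nat.mod_lt p.2 (Nat.pos_of_ne_zero h)
      have a2 := Nat.mod_lt p.1 (Nat.pos_of_ne_zero h')
      have a3 : p.1 % (p.2 % p.1) ≤ p.1 - p.2 % p.1 := by
        rw [Nat.mod_eq_sub_mod a1.le]; exact Nat.mod_le _ _
      rw [pow_succ] at hp
      omega
  refine (PTime.iterate (n := fun a => 2 * (f a).size) (by fun_prop) (by fun_prop) (hf.prodMk hg)
    (f := fun _ => s) (by fun_prop) (fun a => 8 * PT.sz (f a + g a) + 3) (by fun_prop)
    fun a k _ => ?_).snd.of_eq fun a => ?_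
  · obtain ⟨-, a2, a3⟩ := h1 k (f a, g a)
    have := sz_nat_le_of_le a2
    have := sz_nat_le_of_le a3
    rw [← Prod.mk.eta (p := s^[k] (f a, g a)), sz_prod]
    simp only at *; omega
  · have := (h1 (2 * (f a).size) (f a, g a)).1
    rw [h2 _ (f a, g a) (Nat.lt_size_self _), Nat.gcd_zero_left] at this
    exact this

end Vale.Agent.PT
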