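import Vale.Agent.Lib.PTime.Nat

/-! Integers, rationals, finite sums, sorting. -/

namespace Vale.Agent.PT

attribute [local irreducible] PTime PB

open Function TEnc

variable {α β γ δ σ : Type} [TEnc α] [TEnc β] [TEnc γ] [TEnc δ] [TEnc σ]

/-! ### integers -/

instance : TEncInj ℤ := ⟨fun a b h => by
  have : (decide (a < 0), a.natAbs) = (decide (b < 0), b.natAbs) := TEncInj.inj (α := Bool × ℕ) h
  simp only [Prod.mk.injEq, decide_eq_decide] at this
  omega⟩

lemma sz_int (z : ℤ) : sz z ≤ sz z.natAbs + 4 ∧ sz z.natAbs ≤ sz z := by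
  have : sz z = sz (decide (z < 0), z.natAbs) := rfl
  have := sz_bool_le (decide (z < 0))
  simp only [sz_prod] at *; omega

lemma sz_int_le_of_lt {z : ℤ} {k : ℕ} (h : z.natAbs < 2 ^ k) : sz z ≤ 4 * k + 5 := by
  have := sz_nat_le_of_lt h
  have := (sz_int z).1
  omega

lemma natAbs_lt_two_pow_sz (z : ℤ) : z.natAbs < 2 ^ sz z :=
  (lt_two_pow_sz _).trans_le (Nat.pow_le_pow_right (by norm_num) (sz_int z).2)

lemma PTime.int_repr {f : α → ℤ} (hf : PTime f) :
    PTime fun a => (decide (f a < 0), (f a).natAbs) := hf.of_enc fun _ => rfl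

@[fun_prop] lemma PTime.natAbs {f : α → ℤ} (hf : PTime f) : PTime fun a => (f a).natAbs :=
  hf.int_repr.snd

lemma PTime.int_neg_test {f : α → ℤ} (hf : PTime f) : PTime fun a => decide (f a < 0) :=
  hf.int_repr.fst

@[fun_prop] lemma PTime.natCast_int {f : α → ℕ} (hf : PTime f) : PTime fun a => (f a : ℤ) :=
  ((PTime.const false).prodMk hf).of_enc fun a => by
    show TEnc.enc (decide ((f a : ℤ) < 0), (f a : ℤ).natAbs) = _
    rw [decide_eq_false (by omega), Int.natAbs_natCast]

@[fun_prop] lemma PTime.int_neg {f : α → ℤ} (hf : PTime f) : PTime fun a => - f a := by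
  have h1 := hf.int_neg_test
  refine PTime.of_enc (f := fun a => (!decide (f a < 0) && !decide ((f a).natAbs = 0), (f a).natAbs))
    (by fun_prop) fun a => ?_
  show TEnc.enc (decide (- f a < 0), (- f a).natAbs) = _
  congr 2
  · rw [Bool.eq_iff_iff]; simp; omega
  · simp

@[fun_prop] lemma PTime.int_toNat {f : α → ℤ} (hf : PTime f) : PTime fun a => (f a).toNat :=
  (PTime.ite hf.int_neg_test (.const 0) hf.natAbs).of_eq fun a => by split_ifs <;> omega

lemma PTime.subNatNat {f g : α → ℕ} (hf : PTime f) (hg : PTime g) :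
    PTime fun a => (f a : ℤ) - g a :=
  PTime.of_eq (f := fun a => if f a < g a then -((g a - f a : ℕ) : ℤ) else ((f a - g a : ℕ) : ℤ))
    (by fun_prop) fun a => by split_ifs <;> omega

@[fun_prop] lemma PTime.int_add {f g : α → ℤ} (hf : PTime f) (hg : PTime g) :
    PTime fun a => f a + g a :=
  ((hf.int_toNat.add hg.int_toNat).subNatNat
    (hf.int_neg.int_toNat.add hg.int_neg.int_toNat)).of_eq fun a => by omega

@[fun_prop] lemma PTime.int_sub {f g : α → ℤ} (hf : PTime f) (hg : PTime g) :
    PTime fun a => f a - g a := (hf.int_add hg.int_neg).of_eq fun a => by omega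

@[fun_prop] lemma PTime.int_decide_lt {f g : α → ℤ} (hf : PTime f) (hg : PTime g)
    {inst : ∀ a, Decidable (f a < g a)} : PTime fun a => decide (f a < g a) :=
  (hf.int_sub hg).int_neg_test.of_eq fun a => by simp

@[fun_prop] lemma PTime.int_decide_le {f g : α → ℤ} (hf : PTime f) (hg : PTime g)
    {inst : ∀ a, Decidable (f a ≤ g a)} : PTime fun a => decide (f a ≤ g a) :=
  (hg.int_sub hf).int_neg_test.not.of_eq fun a => by rw [Bool.eq_iff_iff]; simp

@[fun_prop] lemma PTime.int_abs {f : α → ℤ} (hf : PTime f) : PTime fun a => |f a| :=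
  hf.natAbs.natCast_int.of_eq fun a => by simp

@[fun_prop] lemma PTime.int_max {f g : α → ℤ} (hf : PTime f) (hg : PTime g) :
    PTime fun a => Max.max (f a) (g a) := by simp only [max_def]; fun_prop

@[fun_prop] lemma PTime.int_min {f g : α → ℤ} (hf : PTime f) (hg : PTime g) :
    PTime fun a => Min.min (f a) (g a) := by simp only [min_def]; fun_prop

@[fun_prop] lemma PTime.int_mul {f g : α → ℤ} (hf : PTime f) (hg : PTime g) :
    PTime fun a => f a * g a := by
  have h := (hf.natAbs.mul hg.natAbs).natCast_int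
  refine ((hf.int_neg_test.xor hg.int_neg_test).cond h.int_neg h).of_eq fun a => ?_
  push_cast
  rcases lt_or_ge (f a) 0 with h1 | h1 <;> rcases lt_or_ge (g a) 0 with h2 | h2
  · simp [h1, h2, abs_of_neg]
  · simp [h1, h2.not_gt, abs_of_neg h1, abs_of_nonneg h2]
  · simp [h2, h1.not_gt, abs_of_neg h2, abs_of_nonneg h1]
  · simp [h2.not_gt, h1.not_gt, abs_of_nonneg h2, abs_of_nonneg h1]

@[fun_prop] lemma PTime.int_emod {f g : α → ℤ} (hf : PTime f) (hg : PTime g) :
    PTime fun a => f a % g a := by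
  refine PTime.of_eq (f := fun a => if g a = 0 then f a else
    (((f a + |f a| * |g a|).toNat % (g a).natAbs : ℕ) : ℤ)) (by fun_prop) fun a => ?_
  split_ifs with h
  · simp [h]
  · have h1 : 1 ≤ |g a| := Int.one_le_abs h
    have h2 : 0 ≤ f a + |f a| * |g a| := by nlinarith [neg_abs_le (f a), abs_nonneg (f a)]
    push_cast
    rw [Int.toNat_of_nonneg h2, Int.add_mul_emod_self_right, Int.emod_abs]

@[fun_prop] lemma PTime.int_ediv {f g : α → ℤ} (hf : PTime f) (hg : PTime g) :
    PTime fun a => f a / g a := by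
  have hw : PTime fun a => f a - f a % g a := by fun_prop
  have h := (hw.natAbs.div hg.natAbs).natCast_int
  refine ((hw.int_neg_test.xor hg.int_neg_test).cond h.int_neg h).of_eq fun a => ?_
  by_cases h0 : g a = 0
  · simp [h0]
  have e : f a - f a % g a = g a * (f a / g a) := by
    have := Int.mul_ediv_add_emod (f a) (g a); linarith
  rw [e, Int.natAbs_mul, Nat.mul_div_cancel_left _ (Int.natAbs_pos.2 h0)]
  generalize f a / g a = q
  rcases lt_or_gt_of_ne h0 with h1 | h1 <;> rcases lt_trichotomy q 0 with h2 | h2 | h2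
  · simp [h1, (mul_pos_of_neg_of_neg h1 h2).not_gt, abs_of_neg h2]
  · simp [h2]
  · simp [h1, mul_neg_of_neg_of_pos h1 h2, abs_of_pos h2]
  · simp [h1.not_gt, mul_neg_of_pos_of_neg h1 h2, abs_of_neg h2]
  · simp [h2]
  · simp [h1.not_gt, (mul_pos h1 h2).not_gt, abs_of_pos h2]

lemma int_sum_lt (l : List ℤ) : l.sum.natAbs < 2 ^ PT.sz l := by
  induction l with
  | nil => simp
  | cons x l ih =>
    have h1 := natAbs_lt_two_pow_sz x
    have h2 : 2 ^ PT.sz x ≤ 2 ^ (PT.sz x + PT.sz l) := Nat.pow_le_pow_right (by norm_num) (by omega)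
    have h3 : 2 ^ PT.sz l ≤ 2 ^ (PT.sz x + PT.sz l) := Nat.pow_le_pow_right (by norm_num) (by omega)
    simp only [List.sum_cons, sz_cons, pow_succ]; omega

lemma int_prod_lt (l : List ℤ) : l.prod.natAbs < 2 ^ PT.sz l := by
  induction l with
  | nil => simp
  | cons x l ih =>
    have h1 := Nat.mul_lt_mul'' (natAbs_lt_two_pow_sz x) ih
    rw [← pow_add] at h1
    simp only [List.prod_cons, sz_cons, pow_succ, Int.natAbs_mul]; omega

@[fun_prop] lemma PTime.int_sum {l : α → List ℤ} (hl : PTime l) : PTime fun a => (l a).sum :=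
  hl.foldr (.const 0) (f := fun _ => (· + ·)) (by fun_prop) (fun a => 4 * PT.sz (l a) + 5)
    (by fun_prop) fun a k => (sz_int_le_of_lt (int_sum_lt _)).trans (by
      have := sz_sublist (List.drop_sublist k (l a)); omega)

@[fun_prop] lemma PTime.int_prod {l : α → List ℤ} (hl : PTime l) : PTime fun a => (l a).prod :=
  hl.foldr (.const 1) (f := fun _ => (· * ·)) (by fun_prop) (fun a => 4 * PT.sz (l a) + 5)
    (by fun_prop) fun a k => (sz_int_le_of_lt (int_prod_lt _)).trans (by
      have := sz_sublist (List.drop_sublist k (l a)); omega)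

@[fun_prop] lemma PTime.int_pow {f : α → ℤ} {n : α → ℕ} (hf : PTime f) (hn : PTime n) (hB : PB n) :
    PTime fun a => f a ^ n a :=
  (hn.replicate hB hf).int_prod.of_eq fun a => by simp

/-! ### rationals -/

instance : TEncInj ℚ := ⟨fun a b h => by
  have : (a.num, a.den) = (b.num, b.den) := TEncInj.inj (α := ℤ × ℕ) h
  simp only [Prod.mk.injEq] at this
  exact Rat.ext this.1 this.2⟩

lemma sz_rat (q : ℚ) : sz q = sz q.num + sz q.den + 1 := sz_prod q.num q.den

lemma sz_rat_le_of_lt {q : ℚ} {k : ℕ} (h : q.num.natAbs < 2 ^ k) (h' : q.den < 2 ^ k) :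
    sz q ≤ 8 * k + 7 := by
  have := sz_int_le_of_lt h
  have := sz_nat_le_of_lt h'
  rw [sz_rat]; omega

lemma PTime.rat_repr {f : α → ℚ} (hf : PTime f) : PTime fun a => ((f a).num, (f a).den) :=
  hf.of_enc fun _ => rfl

@[fun_prop] lemma PTime.num {f : α → ℚ} (hf : PTime f) : PTime fun a => (f a).num := hf.rat_repr.fst
@[fun_prop] lemma PTime.den {f : α → ℚ} (hf : PTime f) : PTime fun a => (f a).den := hf.rat_repr.snd

@[fun_prop] lemma PTime.mkRat {f : α → ℤ} {g : α → ℕ} (hf : PTime f) (hg : PTime g) :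
    PTime fun a => mkRat (f a) (g a) := by
  refine PTime.of_enc (f := fun a => ((_root_.mkRat (f a) (g a)).num, (_root_.mkRat (f a) (g a)).den))
    ?_ fun _ => rfl
  simp only [Rat.num_mkRat, Rat.den_mkRat]
  fun_prop

@[fun_prop] lemma PTime.intCast_rat {f : α → ℤ} (hf : PTime f) : PTime fun a => (f a : ℚ) :=
  (hf.prodMk (.const (1 : ℕ))).of_enc fun _ => rfl

@[fun_prop] lemma PTime.natCast_rat {f : α → ℕ} (hf : PTime f) : PTime fun a => (f a : ℚ) :=
  hf.natCast_int.intCast_rat.of_eq fun _ => by simp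

@[fun_prop] lemma PTime.rat_add {f g : α → ℚ} (hf : PTime f) (hg : PTime g) :
    PTime fun a => f a + g a := by simp only [Rat.add_def']; fun_prop

@[fun_prop] lemma PTime.rat_mul {f g : α → ℚ} (hf : PTime f) (hg : PTime g) :
    PTime fun a => f a * g a := by simp only [Rat.mul_def']; fun_prop

@[fun_prop] lemma PTime.rat_neg {f : α → ℚ} (hf : PTime f) : PTime fun a => - f a :=
  (hf.num.int_neg.prodMk hf.den).of_enc fun _ => rfl

@[fun_prop] lemma PTime.rat_sub {f g : α → ℚ} (hf : PTime f) (hg : PTime g) :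
    PTime fun a => f a - g a := (hf.rat_add hg.rat_neg).of_eq fun a => by ring

@[fun_prop] lemma PTime.rat_inv {f : α → ℚ} (hf : PTime f) : PTime fun a => (f a)⁻¹ := by
  refine PTime.of_eq (f := fun a => if (f a).num < 0 then
    _root_.mkRat (-((f a).den : ℤ)) (f a).num.natAbs
    else _root_.mkRat ((f a).den : ℤ) (f a).num.natAbs) (by fun_prop) fun a => ?_
  rw [Rat.inv_def, Rat.divInt_eq_div]
  split_ifs with h
  · rw [Rat.mkRat_eq_div, Nat.cast_natAbs, abs_of_neg h]; push_cast; rw [neg_div_neg_eq]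
  · rw [Rat.mkRat_eq_div, Nat.cast_natAbs, abs_of_nonneg (not_lt.1 h)]

@[fun_prop] lemma PTime.rat_div {f g : α → ℚ} (hf : PTime f) (hg : PTime g) :
    PTime fun a => f a / g a := (hf.rat_mul hg.rat_inv).of_eq fun _ => (div_eq_mul_inv _ _).symm

@[fun_prop] lemma PTime.rat_decide_lt {f g : α → ℚ} (hf : PTime f) (hg : PTime g)
    {inst : ∀ a, Decidable (f a < g a)} : PTime fun a => decide (f a < g a) :=
  PTime.of_eq (f := fun a => decide ((f a).num * (g a).den < (g a).num * (f a).den)) (by fun_prop)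
    fun a => by rw [decide_eq_decide, Rat.lt_iff]

@[fun_prop] lemma PTime.rat_decide_le {f g : α → ℚ} (hf : PTime f) (hg : PTime g)
    {inst : ∀ a, Decidable (f a ≤ g a)} : PTime fun a => decide (f a ≤ g a) :=
  (hg.rat_decide_lt hf (inst := inferInstance)).not.of_eq fun a => by rw [Bool.eq_iff_iff]; simp

@[fun_prop] lemma PTime.rat_max {f g : α → ℚ} (hf : PTime f) (hg : PTime g) :
    PTime fun a => Max.max (f a) (g a) := by simp only [max_def]; fun_prop

@[fun_prop] lemma PTime.rat_min {f g : α → ℚ} (hf : PTime f) (hg : PTime g) :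
    PTime fun a => Min.min (f a) (g a) := by simp only [min_def]; fun_prop

@[fun_prop] lemma PTime.rat_abs {f : α → ℚ} (hf : PTime f) : PTime fun a => |f a| :=
  (hf.rat_max hf.rat_neg).of_eq fun _ => abs_eq_max_neg.symm

@[fun_prop] lemma PTime.rat_floor {f : α → ℚ} (hf : PTime f) : PTime fun a => ⌊f a⌋ := by
  simp only [Rat.floor_def']; fun_prop

@[fun_prop] lemma PTime.rat_ceil {f : α → ℚ} (hf : PTime f) : PTime fun a => ⌈f a⌉ :=
  hf.rat_neg.rat_floor.int_neg.of_eq fun _ => by rw [Int.floor_neg, neg_neg]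

lemma mkRat_bounds (n : ℤ) (d : ℕ) (hd : 0 < d) :
    (mkRat n d).num.natAbs ≤ n.natAbs ∧ (mkRat n d).den ≤ d := by
  rw [Rat.num_mkRat, Rat.den_mkRat, if_neg hd.ne', if_neg hd.ne']
  exact ⟨Int.natAbs_ediv_le_natAbs _ _, Nat.div_le_self _ _⟩

/-- height bound -/
def HB (q : ℚ) (k : ℕ) : Prop := q.num.natAbs < 2 ^ k ∧ q.den < 2 ^ k

lemma HB.sz_le {q : ℚ} {k : ℕ} (h : HB q k) : sz q ≤ 8 * k + 7 := sz_rat_le_of_lt h.1 h.2

lemma HB.mono {q : ℚ} {k k' : ℕ} (h : HB q k) (hk : k ≤ k') : HB q k' :=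
  ⟨h.1.trans_le (Nat.pow_le_pow_right (by norm_num) hk),
    h.2.trans_le (Nat.pow_le_pow_right (by norm_num) hk)⟩

lemma HB_sz (q : ℚ) : HB q (sz q) :=
  ⟨(natAbs_lt_two_pow_sz _).trans_le (Nat.pow_le_pow_right (by norm_num) (by rw [sz_rat]; omega)),
    (lt_two_pow_sz _).trans_le (Nat.pow_le_pow_right (by norm_num) (by rw [sz_rat]; omega))⟩

lemma HB.add {q r : ℚ} {k m : ℕ} (h : HB q k) (h' : HB r m) : HB (q + r) (k + m + 1) := by
  obtain ⟨a1, a2⟩ := mkRat_bounds (q.num * r.den + r.num * q.den) (q.den * r.den)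
    (Nat.mul_pos q.den_pos r.den_pos)
  have b1 := Nat.mul_lt_mul'' h.1 h'.2
  have b2 := Nat.mul_lt_mul'' h'.1 h.2
  have b3 := Nat.mul_lt_mul'' h.2 h'.2
  have b4 := Int.natAbs_add_le (q.num * r.den) (r.num * q.den)
  simp only [Int.natAbs_mul, Int.natAbs_natCast] at b4
  rw [← pow_add] at b1 b2 b3
  rw [add_comm m k] at b2
  rw [HB, Rat.add_def', pow_succ]
  omega

lemma HB.mul {q r : ℚ} {k m : ℕ} (h : HB q k) (h' : HB r m) : HB (q * r) (k + m) := by
  obtain ⟨a1, a2⟩ := mkRat_bounds (q.num * r.num) (q.den * r.den) (Nat.mul_pos q.den_pos r.den_pos)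
  have b1 := Nat.mul_lt_mul'' h.1 h'.1
  have b3 := Nat.mul_lt_mul'' h.2 h'.2
  rw [Int.natAbs_mul] at a1
  rw [← pow_add] at b1 b3
  rw [HB, Rat.mul_def']
  omega

lemma HB_sum (l : List ℚ) : HB l.sum (sz l) := by
  induction l with
  | nil => simp [HB]
  | cons x l ih => simpa using (HB_sz x).add ih

lemma HB_prod (l : List ℚ) : HB l.prod (sz l) := by
  induction l with
  | nil => simp [HB]
  | cons x l ih => simpa using ((HB_sz x).mul ih).mono (Nat.le_succ _)

@[fun_prop] lemma PTime.rat_sum {l : α → List ℚ} (hl : PTime l) : PTime fun a => (l a).sum :=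
  hl.foldr (.const 0) (f := fun _ => (· + ·)) (by fun_prop) (fun a => 8 * PT.sz (l a) + 7)
    (by fun_prop) fun a k => (HB_sum _).sz_le.trans (by
      have := sz_sublist (List.drop_sublist k (l a)); omega)

@[fun_prop] lemma PTime.rat_prod {l : α → List ℚ} (hl : PTime l) : PTime fun a => (l a).prod :=
  hl.foldr (.const 1) (f := fun _ => (· * ·)) (by fun_prop) (fun a => 8 * PT.sz (l a) + 7)
    (by fun_prop) fun a k => (HB_prod _).sz_le.trans (by
      have := sz_sublist (List.drop_sublist k (l a)); omega)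

@[fun_prop] lemma PTime.rat_pow {f : α → ℚ} {n : α → ℕ} (hf : PTime f) (hn : PTime n) (hB : PB n) :
    PTime fun a => f a ^ n a :=
  (hn.replicate hB hf).rat_prod.of_eq fun a => by simp

/-! ### finite sums and products over ranges -/

lemma sum_range_eq {M : Type} [AddCommMonoid M] (f : ℕ → M) (n : ℕ) :
    ((List.range n).map f).sum = ∑ i ∈ Finset.range n, f i := by
  rw [Finset.sum_eq_multiset_sum]; rfl

lemma prod_range_eq {M : Type} [CommMonoid M] (f : ℕ → M) (n : ℕ) :
    ((List.range n).map f).prod = ∏ i ∈ Finset.range n, f i := by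
  rw [Finset.prod_eq_multiset_prod]; rfl

@[fun_prop] lemma PTime.nat_sum_range {n : α → ℕ} {f : α → ℕ → ℕ} (hn : PTime n) (hB : PB n)
    (hf : PTime fun p : α × ℕ => f p.1 p.2) : PTime fun a => ∑ i ∈ Finset.range (n a), f a i :=
  ((hn.range hB).map hf).nat_sum.of_eq fun _ => sum_range_eq _ _

@[fun_prop] lemma PTime.int_sum_range {n : α → ℕ} {f : α → ℕ → ℤ} (hn : PTime n) (hB : PB n)
    (hf : PTime fun p : α × ℕ => f p.1 p.2) : PTime fun a => ∑ i ∈ Finset.range (n a), f a i :=
  ((hn.range hB).map hf).int_sum.of_eq fun _ => sum_range_eq _ _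

@[fun_prop] lemma PTime.rat_sum_range {n : α → ℕ} {f : α → ℕ → ℚ} (hn : PTime n) (hB : PB n)
    (hf : PTime fun p : α × ℕ => f p.1 p.2) : PTime fun a => ∑ i ∈ Finset.range (n a), f a i :=
  ((hn.range hB).map hf).rat_sum.of_eq fun _ => sum_range_eq _ _

@[fun_prop] lemma PTime.nat_prod_range {n : α → ℕ} {f : α → ℕ → ℕ} (hn : PTime n) (hB : PB n)
    (hf : PTime fun p : α × ℕ => f p.1 p.2) : PTime fun a => ∏ i ∈ Finset.range (n a), f a i :=
  ((hn.range hB).map hf).nat_prod.of_eq fun _ => prod_range_eq _ _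

@[fun_prop] lemma PTime.int_prod_range {n : α → ℕ} {f : α → ℕ → ℤ} (hn : PTime n) (hB : PB n)
    (hf : PTime fun p : α × ℕ => f p.1 p.2) : PTime fun a => ∏ i ∈ Finset.range (n a), f a i :=
  ((hn.range hB).map hf).int_prod.of_eq fun _ => prod_range_eq _ _

@[fun_prop] lemma PTime.rat_prod_range {n : α → ℕ} {f : α → ℕ → ℚ} (hn : PTime n) (hB : PB n)
    (hf : PTime fun p : α × ℕ => f p.1 p.2) : PTime fun a => ∏ i ∈ Finset.range (n a), f a i :=
  ((hn.range hB).map hf).rat_prod.of_eq fun _ => prod_range_eq _ _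

@[fun_prop] lemma PTime.decide_forall_lt {n : α → ℕ} {p : α → ℕ → Prop}
    [∀ a b, Decidable (p a b)] (hn : PTime n) (hB : PB n)
    (hp : PTime fun q : α × ℕ => decide (p q.1 q.2))
    {inst : ∀ a, Decidable (∀ b < n a, p a b)} : PTime fun a => decide (∀ b < n a, p a b) := by
  refine ((hn.range hB).all (f := fun a b => decide (p a b)) hp).of_eq fun a => ?_
  rw [Bool.eq_iff_iff]; simp

@[fun_prop] lemma PTime.decide_exists_lt {n : α → ℕ} {p : α → ℕ → Prop}
    [∀ a b, Decidable (p a b)] (hn : PTime n) (hB : PB n)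
    (hp : PTime fun q : α × ℕ => decide (p q.1 q.2))
    {inst : ∀ a, Decidable (∃ b < n a, p a b)} : PTime fun a => decide (∃ b < n a, p a b) := by
  refine ((hn.range hB).any (f := fun a b => decide (p a b)) hp).of_eq fun a => ?_
  rw [Bool.eq_iff_iff]; simp

/-! ### more list functions -/

@[fun_prop] lemma PTime.takeWhile {l : α → List β} {f : α → β → Bool} (hl : PTime l)
    (hf : PTime fun p : α × β => f p.1 p.2) : PTime fun a => (l a).takeWhile (f a) := by
  have h := hl.dropWhile hf
  refine PTime.of_eq (f := fun a => (l a).take ((l a).length - ((l a).dropWhile (f a)).length))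
    (by fun_prop) fun a => ?_
  have e := List.takeWhile_append_dropWhile (p := f a) (l := l a)
  have e2 := congrArg List.length e
  rw [List.length_append] at e2
  rw [show (l a).length - ((l a).dropWhile (f a)).length =
    ((l a).takeWhile (f a)).length by omega]
  exact (List.prefix_iff_eq_take.1 (List.takeWhile_prefix _)).symm

@[fun_prop] lemma PTime.findIdx {l : α → List β} {f : α → β → Bool} (hl : PTime l)
    (hf : PTime fun p : α × β => f p.1 p.2) : PTime fun a => (l a).findIdx (f a) :=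
  (hl.takeWhile (f := fun a b => !f a b) hf.not).length.of_eq fun a => by
    induction l a with
    | nil => rfl
    | cons b t ih => cases h : f a b <;> simp [List.findIdx_cons, h, ih]

lemma PTime.orderedInsert {l : α → List β} {x : α → β} (r : α → β → β → Prop)
    [∀ a, DecidableRel (r a)] (hl : PTime l) (hx : PTime x)
    (hr : PTime fun p : α × β × β => decide (r p.1 p.2.1 p.2.2)) :
    PTime fun a => (l a).orderedInsert (r a) (x a) := by
  have h : PTime fun p : α × β => !decide (r p.1 (x p.1) p.2) :=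
    (hr.comp (f := fun p : α × β => (p.1, x p.1, p.2)) (by fun_prop)).not
  refine ((hl.takeWhile (f := fun a b => !decide (r a (x a) b)) h).append (hx.cons
    (hl.dropWhile (f := fun a b => !decide (r a (x a) b)) h))).of_eq fun a => ?_
  rw [List.orderedInsert_eq_take_drop]
  simp

lemma sz_perm {l l' : List α} (h : l.Perm l') : sz l = sz l' := by
  simp only [sz_list]; rw [(h.map _).sum_eq]

lemma PTime.insertionSort {l : α → List β} (r : α → β → β → Prop) [∀ a, DecidableRel (r a)]
    (hl : PTime l) (hr : PTime fun p : α × β × β => decide (r p.1 p.2.1 p.2.2)) :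
    PTime fun a => (l a).insertionSort (r a) := by
  refine hl.foldr (.const []) (f := fun a b s => s.orderedInsert (r a) b)
    (PTime.orderedInsert (fun p : α × β × List β => r p.1) (by fun_prop) (by fun_prop)
      (hr.comp (f := fun p : (α × β × List β) × β × β => (p.1.1, p.2)) (by fun_prop)))
    _ hl.sz_PB fun a k => ?_
  exact (sz_perm (List.perm_insertionSort (r a) _)).le.trans (sz_sublist (List.drop_sublist _ _))

@[fun_prop] lemma PTime.dedup [TEncInj β] [DecidableEq β] {l : α → List β} (hl : PTime l) :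
    PTime fun a => (l a).dedup := by
  have key : ∀ t : List β, t.foldr (fun b s => if b ∈ s then s else b :: s) [] = t.dedup := by
    intro t
    induction t with
    | nil => rfl
    | cons b t ih =>
      rw [List.foldr_cons, ih]
      split_ifs with h
      · rw [List.dedup_cons_of_mem' h]
      · rw [List.dedup_cons_of_notMem' h]
  refine (hl.foldr (.const []) (f := fun _ b s => if b ∈ s then s else b :: s) (by fun_prop)
    _ hl.sz_PB fun a k => ?_).of_eq fun a => key _
  rw [key]
  exact sz_sublist ((List.dedup_sublist _).trans (List.drop_sublist _ _))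

/-- a fold that always returns its state or the current element (e.g. `max`, `min`, `argmin`) -/
lemma PTime.foldl_select {l : α → List β} {i : α → β} {f : α → β → β → β} (hl : PTime l)
    (hi : PTime i) (hf : PTime fun p : α × β × β => f p.1 p.2.1 p.2.2)
    (h : ∀ a s b, f a s b = s ∨ f a s b = b) : PTime fun a => (l a).foldl (f a) (i a) := by
  refine hl.foldl_add hi hf _ hl.sz_PB fun a s b hb => ?_
  have := sz_le_of_mem hb
  rcases h a s b with h | h <;> rw [h] <;> omega

end Vale.Agent.PT
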